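import Vale.Agent.P134.Periodic.Weak
import Vale.Agent.P134.Slab.Grad

/-!
# P134: weak equations for test functions with compact support
-/

noncomputable section

open MeasureTheory Set Filter Topology

namespace Vale.Agent.P134.Recur

open Vale.Agent.P134.Periodic (pd IsMonotoneSolution continuous_pd)

variable {m : ℕ}

/-- A monotone solution together with its increasing axis. -/
structure Sol (m : ℕ) where
  /-- the increasing axis -/
  a : Fin (m + 1)
  /-- the solution -/
  u : (Fin (m + 1) → ℝ) → ℝ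
  sol : IsMonotoneSolution a u

lemma integrable_of_supp {F : (Fin (m + 1) → ℝ) → ℝ} (hF : Continuous F)
    (hs : HasCompactSupport F) : Integrable F :=
  hF.integrable_of_hasCompactSupport hs

lemma supp_pd {F : (Fin (m + 1) → ℝ) → ℝ} (hs : HasCompactSupport F) (i : Fin (m + 1)) :
    HasCompactSupport (pd F i) :=
  hs.fderiv_apply ℝ _

/-- Integration by parts against a test function with compact support. -/
lemma ibp {G F : (Fin (m + 1) → ℝ) → ℝ} (hG : ContDiff ℝ 1 G) (hF : ContDiff ℝ 1 F)
    (hs : HasCompactSupport F) (i : Fin (m + 1)) :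
    ∫ x, G x * pd F i x = -∫ x, pd G i x * F x :=
  integral_mul_fderiv_eq_neg_fderiv_mul_of_integrable
    (integrable_of_supp ((continuous_pd hG i).fun_mul hF.continuous) hs.mul_left)
    (integrable_of_supp (hG.continuous.fun_mul (continuous_pd hF i)) (supp_pd hs i).mul_left)
    (integrable_of_supp (hG.continuous.fun_mul hF.continuous) hs.mul_left)
    (fun x _ => hG.differentiable one_ne_zero x) (fun x _ => hF.differentiable one_ne_zero x)

namespace Sol

variable (P : Sol m)

lemma contDiff_pd (i : Fin (m + 1)) : ContDiff ℝ 1 (pd P.u i) :=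
  (P.sol.smooth.fderiv_right (by norm_num)).clm_apply contDiff_const

lemma contDiff_u : ContDiff ℝ 1 P.u := P.sol.smooth.of_le (by norm_num)

/-- The bound for the first derivatives. -/
def K (_P : Sol m) : ℝ := (m : ℝ) + 3

lemma one_le_K : 1 ≤ P.K := by
  have : (0 : ℝ) ≤ m := m.cast_nonneg
  simp only [K]; linarith

lemma abs_pd_u_le (i : Fin (m + 1)) (x : Fin (m + 1) → ℝ) : |pd P.u i x| ≤ P.K :=
  (Slab.abs_pd_le P.sol.smooth P.sol.bdd P.sol.eqn i x).trans (le_of_eq (by
    simp only [K]; push_cast; ring))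

/-- The translated solution. -/
def translate (z : Fin (m + 1) → ℝ) : Sol m where
  a := P.a
  u x := P.u (x + z)
  sol := by
    have h1 : ∀ (F : (Fin (m + 1) → ℝ) → ℝ) i x, pd (fun y => F (y + z)) i x = pd F i (x + z) :=
      fun F i x => by rw [pd, fderiv_comp_add_right, pd]
    refine ⟨P.sol.smooth.comp (contDiff_id.add contDiff_const), fun x => P.sol.bdd _, fun x => ?_,
      fun x => ?_⟩
    · have h2 : ∀ i, pd (fun y => P.u (y + z)) i = fun y => pd P.u i (y + z) := fun i =>
        funext fun y => h1 _ i y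
      simp only [h2, h1]
      exact P.sol.eqn _
    · rw [h1]; exact P.sol.mono _

lemma pd_translate (z : Fin (m + 1) → ℝ) (i : Fin (m + 1)) :
    pd (P.translate z).u i = fun x => pd P.u i (x + z) := funext fun x => by
  show pd (fun y => P.u (y + z)) i x = _
  rw [pd, fderiv_comp_add_right, pd]

/-- The equation, weakly. -/
lemma weak_eqn {φ : (Fin (m + 1) → ℝ) → ℝ} (hφ : ContDiff ℝ 1 φ) (hs : HasCompactSupport φ) :
    (∑ i, ∫ x, pd P.u i x * pd φ i x) = -∫ x, (P.u x ^ 3 - P.u x) * φ x := by
  simp only [ibp (P.contDiff_pd _) hφ hs, Finset.sum_neg_distrib]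
  rw [← integral_finsetSum _ fun i _ =>
    integrable_of_supp ((continuous_pd (P.contDiff_pd i) i).fun_mul hφ.continuous) hs.mul_left]
  simp only [← Finset.sum_mul, P.sol.eqn]

/-- The linearised equation for a derivative of the solution, weakly. -/
lemma weak_deriv (j : Fin (m + 1)) {φ : (Fin (m + 1) → ℝ) → ℝ} (hφ : ContDiff ℝ 1 φ)
    (hs : HasCompactSupport φ) :
    (∑ i, ∫ x, pd (pd P.u j) i x * pd φ i x) =
      -∫ x, (3 * P.u x ^ 2 - 1) * pd P.u j x * φ x := by
  obtain ⟨r, hr⟩ := hs.isCompact.isBounded.subset_closedBall 0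
  set S : Set (Fin (m + 1) → ℝ) := Metric.closedBall 0 r with hS
  have hSk : IsCompact S := isCompact_closedBall _ _
  have hφ0 : ∀ x ∉ S, φ x = 0 := fun x hx => image_eq_zero_of_notMem_tsupport fun h => hx (hr h)
  have hdφ0 : ∀ i, ∀ x ∉ S, pd φ i x = 0 := fun i x hx => by
    rw [pd, fderiv_of_notMem_tsupport ℝ fun h => hx (hr h)]; simp
  have hres : ∀ (G H : (Fin (m + 1) → ℝ) → ℝ), (∀ x ∉ S, H x = 0) →
      ∫ x in S, G x * H x = ∫ x, G x * H x := fun G H h0 =>
    setIntegral_eq_integral_of_forall_compl_eq_zero fun x hx => by rw [h0 x hx, mul_zero]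
  set f : (Fin (m + 1) → ℝ) → ℝ := fun x => P.u x ^ 3 - P.u x with hf
  have hf1 : ContDiff ℝ 1 f := (P.contDiff_u.pow 3).sub P.contDiff_u
  set Φ := fun h : ℝ => (∑ i, ∫ x in S, Periodic.Setup.slope (pd P.u i) j h x * pd φ i x) +
    ∫ x in S, Periodic.Setup.slope f j h x * φ x with hΦ
  have hΦc : Continuous Φ := by
    refine (continuous_finsetSum _ fun i _ => ?_).add ?_ <;>
      refine continuous_parametric_integral_of_continuous ?_ hSk
    · exact (Periodic.Setup.continuous_slope (P.contDiff_pd i) j).mul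
        ((continuous_pd hφ i).comp continuous_snd)
    · exact (Periodic.Setup.continuous_slope hf1 j).mul (hφ.continuous.comp continuous_snd)
  have hzero : ∀ h : ℝ, h ≠ 0 → Φ h = 0 := by
    intro h hh
    set Q := P.translate (h • Pi.single j 1) with hQ
    have e1 : ∀ (G : (Fin (m + 1) → ℝ) → ℝ), ContDiff ℝ 1 G → ∀ x,
        Periodic.Setup.slope G j h x = h⁻¹ * (G (x + h • Pi.single j 1) - G x) :=
      fun G hG x => Periodic.Setup.slope_eq hG j hh x
    have hQ1 := Q.weak_eqn hφ hs
    have hP1 := P.weak_eqn hφ hs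
    rw [hQ] at hQ1
    simp only [pd_translate] at hQ1
    simp only [translate] at hQ1
    have hint : ∀ (G H : (Fin (m + 1) → ℝ) → ℝ), Continuous G → Continuous H →
        HasCompactSupport H → Integrable fun x => G x * H x := fun G H h1 h2 h3 =>
      integrable_of_supp (h1.fun_mul h2) h3.mul_left
    have key : ∀ (G : (Fin (m + 1) → ℝ) → ℝ), ContDiff ℝ 1 G → ∀ H : (Fin (m + 1) → ℝ) → ℝ,
        Continuous H → HasCompactSupport H → (∀ x ∉ S, H x = 0) →
        ∫ x in S, Periodic.Setup.slope G j h x * H x =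
          h⁻¹ * ((∫ x, G (x + h • Pi.single j 1) * H x) - ∫ x, G x * H x) := by
      intro G hG H hH hHs hH0
      have hGc : Continuous fun x : Fin (m + 1) → ℝ => G (x + h • Pi.single j 1) :=
        hG.continuous.comp (continuous_id.add continuous_const)
      rw [hres _ _ hH0, ← integral_sub (hint _ _ hGc hH hHs) (hint _ _ hG.continuous hH hHs),
        ← integral_const_mul]
      simp only [e1 G hG, mul_assoc, sub_mul]
    simp only [hΦ, key _ (P.contDiff_pd _) _ (continuous_pd hφ _) (supp_pd hs _) (hdφ0 _),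
      key f hf1 φ hφ.continuous hs hφ0, ← Finset.mul_sum, Finset.sum_sub_distrib, hQ1, hP1]
    simp only [hf]
    ring
  have h0 : Φ 0 = 0 := congrFun (hΦc.ext_on (dense_compl_singleton (0 : ℝ)) continuous_const
    fun h hh => hzero h hh) 0
  simp only [hΦ, Periodic.Setup.slope_zero] at h0
  have e3 : ∀ x, pd f j x = (3 * P.u x ^ 2 - 1) * pd P.u j x := fun x => by
    have hd := (P.contDiff_u.differentiable one_ne_zero x).hasFDerivAt
    have h3 : HasFDerivAt f ((3 * P.u x ^ 2) • fderiv ℝ P.u x - fderiv ℝ P.u x) x := by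
      refine ((hd.pow 3).sub hd).congr_fderiv ?_
      simp
    rw [pd, h3.fderiv]
    simp [pd]
    ring
  simp only [e3, Periodic.Setup.pd_pd_symm P.sol.smooth _ j, hres _ _ hφ0, hres _ _ (hdφ0 _)] at h0
  linarith

end Sol

end Vale.Agent.P134.Recur
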