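import Vale.Agent.P134.Recur.Ident

/-!
# P134: stability and its consequences
-/

noncomputable section

open MeasureTheory Set Real

namespace Vale.Agent.P134.Recur.Sol

open Vale.Agent.P134.Periodic (pd continuous_pd)

variable {m : ℕ} (P : Sol m) {φ ζ : (Fin (m + 1) → ℝ) → ℝ}

lemma supp_sq {F : (Fin (m + 1) → ℝ) → ℝ} (hs : HasCompactSupport F) :
    HasCompactSupport fun x => F x ^ 2 :=
  hs.comp_left (g := fun r : ℝ => r ^ 2) (by simp)

lemma integrable_sum_sq_pd (hφ : ContDiff ℝ 1 φ) (hs : HasCompactSupport φ) :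
    Integrable fun x => ∑ i, pd φ i x ^ 2 :=
  integrable_finsetSum _ fun i _ =>
    integrable_of_supp ((continuous_pd hφ i).pow 2) (supp_sq (supp_pd hs i))

/-- Testing the equation of `u_a` with `φ² / u_a`. -/
lemma stability (hφ : ContDiff ℝ 1 φ) (hs : HasCompactSupport φ) :
    ∫ x, ∑ i, (φ x * pd (pd P.u P.a) i x / pd P.u P.a x - pd φ i x) ^ 2 =
      ∫ x, (∑ i, pd φ i x ^ 2) + (3 * P.u x ^ 2 - 1) * φ x ^ 2 := by
  set w := pd P.u P.a with hw
  have hwc : ContDiff ℝ 1 w := P.contDiff_pd P.a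
  have hw0 : ∀ x, w x ≠ 0 := fun x => (P.sol.mono x).ne'
  set ψ := fun x => φ x * φ x / w x with hψ
  have hψc : ContDiff ℝ 1 ψ := (hφ.mul hφ).div hwc hw0
  have hψs : HasCompactSupport ψ := by
    simp only [hψ, div_eq_mul_inv]
    exact ((hs.mul_right (f' := φ)).mul_right (f' := fun x => (w x)⁻¹))
  have e := P.weak_deriv P.a hψc hψs
  simp only [← hw] at e
  have hpt : ∀ x, ∑ i, (φ x * pd w i x / w x - pd φ i x) ^ 2 =
      ((∑ i, pd φ i x ^ 2) + (3 * P.u x ^ 2 - 1) * φ x ^ 2) -
        ((∑ i, pd w i x * pd ψ i x) + (3 * P.u x ^ 2 - 1) * w x * ψ x) := by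
    intro x
    have e2 : (3 * P.u x ^ 2 - 1) * w x * ψ x = (3 * P.u x ^ 2 - 1) * φ x ^ 2 := by
      have := hw0 x; simp only [hψ]; field_simp
    rw [e2, add_sub_add_right_eq_sub, ← Finset.sum_sub_distrib]
    refine Finset.sum_congr rfl fun i _ => ?_
    have hdw := (hwc.differentiable one_ne_zero x).hasFDerivAt
    have hdφ := (hφ.differentiable one_ne_zero x).hasFDerivAt
    have hwi : HasFDerivAt (fun y => (w y)⁻¹) (-(w x ^ 2)⁻¹ • fderiv ℝ w x) x :=
      (hasDerivAt_inv (hw0 x)).comp_hasFDerivAt x hdw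
    have hψd := (hdφ.mul hdφ).mul hwi
    rw [show pd ψ i x = 2 * φ x * pd φ i x / w x - φ x ^ 2 * pd w i x / w x ^ 2 by
      rw [pd, show ψ = φ * φ * (fun y => (w y)⁻¹) from funext fun y => by
        simp [hψ, div_eq_mul_inv], hψd.fderiv]
      simp [pd]
      ring]
    have := hw0 x
    field_simp
    ring
  have c0 : Continuous fun x => 3 * P.u x ^ 2 - 1 :=
    (continuous_const.mul (P.contDiff_u.continuous.pow 2)).sub continuous_const
  have i0 : Integrable fun x => (3 * P.u x ^ 2 - 1) * φ x ^ 2 :=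
    integrable_of_supp (c0.fun_mul (hφ.continuous.pow 2)) (supp_sq hs).mul_left
  have i1 : Integrable fun x => (∑ i, pd φ i x ^ 2) + (3 * P.u x ^ 2 - 1) * φ x ^ 2 :=
    (integrable_sum_sq_pd hφ hs).add i0
  have i2 : ∀ i, Integrable fun x => pd w i x * pd ψ i x := fun i =>
    integrable_of_supp ((continuous_pd hwc i).fun_mul (continuous_pd hψc i)) (supp_pd hψs i).mul_left
  have i3 : Integrable fun x => (3 * P.u x ^ 2 - 1) * w x * ψ x :=
    integrable_of_supp ((c0.fun_mul hwc.continuous).fun_mul hψc.continuous) hψs.mul_left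
  have i4 : Integrable fun x => (∑ i, pd w i x * pd ψ i x) + (3 * P.u x ^ 2 - 1) * w x * ψ x :=
    (integrable_finsetSum _ fun i _ => i2 i).add i3
  simp only [hpt]
  rw [integral_sub i1 i4, integral_add (integrable_finsetSum _ fun i _ => i2 i) i3,
    integral_finsetSum _ fun i _ => i2 i]
  linarith

/-- The log of `u_a` has square integrable gradient. -/
lemma log_bound (hφ : ContDiff ℝ 1 φ) (hs : HasCompactSupport φ) :
    ∫ x, φ x ^ 2 * ∑ i, (pd (pd P.u P.a) i x / pd P.u P.a x) ^ 2 ≤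
      4 * (∫ x, ∑ i, pd φ i x ^ 2) + 4 * ∫ x, φ x ^ 2 := by
  set w := pd P.u P.a with hw
  have hq : ∀ i, Continuous fun x => pd w i x / w x := fun i =>
    (continuous_pd (P.contDiff_pd P.a) i).div (P.contDiff_pd P.a).continuous
      fun x => (P.sol.mono x).ne'
  have il : Integrable fun x => φ x ^ 2 * ∑ i, (pd w i x / w x) ^ 2 :=
    integrable_of_supp ((hφ.continuous.pow 2).fun_mul
      (continuous_finsetSum _ fun i _ => (hq i).pow 2)) (supp_sq hs).mul_right
  have ic : ∀ i, Integrable fun x => (φ x * pd w i x / w x - pd φ i x) ^ 2 := fun i =>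
    integrable_of_supp (((hφ.continuous.fun_mul (continuous_pd (P.contDiff_pd P.a) i)).div
      (P.contDiff_pd P.a).continuous fun x => (P.sol.mono x).ne').sub (continuous_pd hφ i) |>.pow 2)
      (supp_sq (HasCompactSupport.sub (by
        simp only [mul_div_assoc]; exact hs.mul_right) (supp_pd hs i)))
  have is : Integrable fun x => ∑ i, (φ x * pd w i x / w x - pd φ i x) ^ 2 :=
    integrable_finsetSum _ fun i _ => ic i
  have id' := integrable_sum_sq_pd hφ hs
  have iq : Integrable fun x => φ x ^ 2 :=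
    integrable_of_supp (hφ.continuous.pow 2) (supp_sq hs)
  have h1 : (∫ x, φ x ^ 2 * ∑ i, (pd w i x / w x) ^ 2) ≤
      2 * (∫ x, ∑ i, (φ x * pd w i x / w x - pd φ i x) ^ 2) + 2 * ∫ x, ∑ i, pd φ i x ^ 2 := by
    rw [← integral_const_mul, ← integral_const_mul, ← integral_add (is.const_mul 2) (id'.const_mul 2)]
    refine integral_mono il ((is.const_mul 2).add (id'.const_mul 2)) fun x => ?_
    simp only [Finset.mul_sum, Pi.add_apply, ← Finset.sum_add_distrib]
    refine Finset.sum_le_sum fun i _ => ?_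
    rw [mul_div_assoc, ← mul_pow]
    nlinarith [sq_nonneg (φ x * (pd w i x / w x) - 2 * pd φ i x)]
  rw [P.stability hφ hs] at h1
  have i0 : Integrable fun x => (3 * P.u x ^ 2 - 1) * φ x ^ 2 :=
    integrable_of_supp (((continuous_const.mul (P.contDiff_u.continuous.pow 2)).sub
      continuous_const).fun_mul (hφ.continuous.pow 2)) (supp_sq hs).mul_left
  have h2 : (∫ x, (∑ i, pd φ i x ^ 2) + (3 * P.u x ^ 2 - 1) * φ x ^ 2) ≤
      (∫ x, ∑ i, pd φ i x ^ 2) + 2 * ∫ x, φ x ^ 2 := by
    rw [← integral_const_mul, ← integral_add id' (iq.const_mul 2)]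
    refine integral_mono (id'.add i0) (id'.add (iq.const_mul 2)) fun x => add_le_add le_rfl ?_
    have := (sq_le_one_iff_abs_le_one (P.u x)).2 (P.sol.bdd x)
    nlinarith [sq_nonneg (φ x)]
  linarith

/-- The potential is controlled by the gradient, using the equation and stability. -/
lemma potential_bound (hζ : ContDiff ℝ 1 ζ) (hs : HasCompactSupport ζ) :
    ∫ x, ζ x ^ 2 * (1 - P.u x ^ 2) ^ 2 ≤
      14 * (∫ x, ζ x ^ 2 * P.grad2 x) + 5 * ∫ x, ∑ i, pd ζ i x ^ 2 := by
  have hu := P.contDiff_u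
  have s2 := supp_sq hs
  have c2 := hζ.continuous.pow 2
  set A := fun x => ζ x ^ 2 * P.grad2 x
  set Z := fun x => ∑ i, pd ζ i x ^ 2
  set Y := fun x => ζ x ^ 2 * (P.u x ^ 2 * (1 - P.u x ^ 2)) with hY
  set W := fun x => ζ x ^ 2 * (1 - P.u x ^ 2) ^ 2 with hW
  have iA : Integrable A := integrable_of_supp (c2.fun_mul P.continuous_grad2) s2.mul_right
  have iZ : Integrable Z := integrable_sum_sq_pd hζ hs
  have iY : Integrable Y := integrable_of_supp (c2.fun_mul
    ((hu.continuous.pow 2).mul (continuous_const.sub (hu.continuous.pow 2)))) s2.mul_right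
  have iW : Integrable W := integrable_of_supp (c2.fun_mul
    ((continuous_const.sub (hu.continuous.pow 2)).pow 2)) s2.mul_right
  have h1 : (∫ x, Y x) ≤ 2 * (∫ x, A x) + ∫ x, Z x := by
    set φ := fun x => P.u x * (ζ x * ζ x) with hφ
    have hφc : ContDiff ℝ 1 φ := hu.mul (hζ.mul hζ)
    have hφs : HasCompactSupport φ := (hs.mul_right (f' := ζ)).mul_left
    have e := P.weak_eqn hφc hφs
    have i1 : ∀ i, Integrable fun x => pd P.u i x * pd φ i x := fun i =>
      integrable_of_supp ((continuous_pd hu i).fun_mul (continuous_pd hφc i))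
        (supp_pd hφs i).mul_left
    rw [← integral_finsetSum _ fun i _ => i1 i] at e
    have h : (∫ x, ∑ i, pd P.u i x * pd φ i x) ≤ ∫ x, 2 * A x + Z x := by
      refine integral_mono (integrable_finsetSum _ fun i _ => i1 i) ((iA.const_mul 2).add iZ) fun x => ?_
      simp only [A, Z, grad2, Pi.add_apply, Finset.mul_sum, ← Finset.sum_add_distrib]
      refine Finset.sum_le_sum fun i _ => ?_
      have hdu := (hu.differentiable one_ne_zero x).hasFDerivAt
      have hdζ := (hζ.differentiable one_ne_zero x).hasFDerivAt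
      rw [show pd φ i x = pd P.u i x * ζ x ^ 2 + 2 * P.u x * ζ x * pd ζ i x by
        rw [pd, show φ = P.u * (ζ * ζ) from rfl, (hdu.mul (hdζ.mul hdζ)).fderiv]
        simp [pd]
        ring]
      have hu1 := (sq_le_one_iff_abs_le_one (P.u x)).2 (P.sol.bdd x)
      nlinarith [sq_nonneg (ζ x * pd P.u i x - P.u x * pd ζ i x),
        mul_le_mul_of_nonneg_right hu1 (sq_nonneg (pd ζ i x))]
    rw [integral_add (iA.const_mul 2) iZ, integral_const_mul] at h
    have e2 : -(∫ x, (P.u x ^ 3 - P.u x) * φ x) = ∫ x, Y x := by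
      rw [← integral_neg]; congr 1; funext x; simp only [hφ, hY]; ring
    linarith
  set ψ := fun x => (1 - P.u x ^ 2) * ζ x with hψ
  have hψc : ContDiff ℝ 1 ψ := (contDiff_const.sub (hu.pow 2)).mul hζ
  have hψs : HasCompactSupport ψ := hs.mul_left
  have h0 : 0 ≤ ∫ x, ∑ i, (ψ x * pd (pd P.u P.a) i x / pd P.u P.a x - pd ψ i x) ^ 2 :=
    integral_nonneg fun x => Finset.sum_nonneg fun i _ => sq_nonneg _
  rw [P.stability hψc hψs] at h0
  have i5 : Integrable fun x => (3 * P.u x ^ 2 - 1) * ψ x ^ 2 :=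
    integrable_of_supp (((continuous_const.mul (hu.continuous.pow 2)).sub continuous_const).fun_mul
      (hψc.continuous.pow 2)) (supp_sq hψs).mul_left
  have iR1 : Integrable fun x => 2 * Z x + 8 * A x := (iZ.const_mul 2).add (iA.const_mul 8)
  have iR2 : Integrable fun x => 3 * Y x + (-1) * W x := (iY.const_mul 3).add (iW.const_mul (-1))
  have h2 : 0 ≤ ∫ x, (2 * Z x + 8 * A x) + (3 * Y x + (-1) * W x) := by
    refine h0.trans (integral_mono ((integrable_sum_sq_pd hψc hψs).add i5) (iR1.add iR2) fun x => ?_)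
    have hu1 := (sq_le_one_iff_abs_le_one (P.u x)).2 (P.sol.bdd x)
    refine add_le_add ?_ ?_
    · simp only [A, Z, grad2, Finset.mul_sum, ← Finset.sum_add_distrib]
      refine Finset.sum_le_sum fun i _ => ?_
      have hdu := (hu.differentiable one_ne_zero x).hasFDerivAt
      have hdζ := (hζ.differentiable one_ne_zero x).hasFDerivAt
      have hd := ((hdu.pow 2).const_sub 1).mul hdζ
      have hd' : HasFDerivAt ψ _ x := hd
      rw [show pd ψ i x = (1 - P.u x ^ 2) * pd ζ i x - 2 * P.u x * pd P.u i x * ζ x by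
        rw [pd, hd'.fderiv]; simp [pd]; ring]
      have h4 : (1 - P.u x ^ 2) ^ 2 ≤ 1 := by nlinarith [sq_nonneg (P.u x)]
      nlinarith [sq_nonneg ((1 - P.u x ^ 2) * pd ζ i x + 2 * P.u x * pd P.u i x * ζ x),
        mul_le_mul_of_nonneg_right h4 (sq_nonneg (pd ζ i x)),
        mul_le_mul_of_nonneg_right hu1 (sq_nonneg (pd P.u i x * ζ x))]
    · simp only [hψ, hY, hW]
      have : 0 ≤ (1 - P.u x ^ 2) * P.u x ^ 2 * (P.u x ^ 2 * ζ x ^ 2) :=
        mul_nonneg (mul_nonneg (by linarith) (sq_nonneg _))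
          (mul_nonneg (sq_nonneg _) (sq_nonneg _))
      nlinarith
  rw [integral_add iR1 iR2, integral_add (iZ.const_mul 2) (iA.const_mul 8),
    integral_add (iY.const_mul 3) (iW.const_mul (-1))] at h2
  simp only [integral_const_mul] at h2
  linarith

end Vale.Agent.P134.Recur.Sol
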