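import Vale.Agent.P134.Slab.Plateau
import Vale.Agent.P134.Recur.Basic

/-!
# P134: product weights on the whole space
-/

noncomputable section

open MeasureTheory Set Real

namespace Vale.Agent.P134.Recur

open Vale.Agent.P134.Periodic (pd continuous_pd)
open Vale.Agent.P134.Slab (plateau contDiff_plateau plateau_mem plateau_eq_one plateau_eq_zero
  exists_deriv_plateau_bound)

variable {m : ℕ} {f g : Fin (m + 1) → ℝ → ℝ}

/-- The product weight. -/
def weight (f : Fin (m + 1) → ℝ → ℝ) (x : Fin (m + 1) → ℝ) : ℝ := ∏ j, f j (x j)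

lemma contDiff_weight (hf : ∀ j, ContDiff ℝ 1 (f j)) : ContDiff ℝ 1 (weight f) :=
  contDiff_prod fun j _ => (hf j).comp (contDiff_apply ℝ ℝ j)

lemma continuous_weight (hf : ∀ j, Continuous (f j)) : Continuous (weight f) :=
  continuous_finsetProd _ fun j _ => (hf j).comp (continuous_apply j)

lemma supp_weight (hs : ∀ j, HasCompactSupport (f j)) : HasCompactSupport (weight f) := by
  refine HasCompactSupport.intro (isCompact_univ_pi fun j => (hs j).isCompact) fun x hx => ?_
  simp only [mem_pi, mem_univ, true_implies, not_forall] at hx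
  obtain ⟨j, hj⟩ := hx
  exact Finset.prod_eq_zero (Finset.mem_univ j) (image_eq_zero_of_notMem_tsupport hj)

lemma weight_nonneg (hf : ∀ j s, 0 ≤ f j s) (x : Fin (m + 1) → ℝ) : 0 ≤ weight f x :=
  Finset.prod_nonneg fun j _ => hf j _

lemma weight_mono (hf : ∀ j s, 0 ≤ f j s) (h : ∀ j s, f j s ≤ g j s) (x : Fin (m + 1) → ℝ) :
    weight f x ≤ weight g x :=
  Finset.prod_le_prod (fun j _ => hf j _) fun j _ => h j _

lemma weight_le_one (hf : ∀ j s, 0 ≤ f j s ∧ f j s ≤ 1) (x : Fin (m + 1) → ℝ) : weight f x ≤ 1 :=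
  Finset.prod_le_one (fun j _ => (hf j _).1) fun j _ => (hf j _).2

lemma abs_weight (f : Fin (m + 1) → ℝ → ℝ) (x : Fin (m + 1) → ℝ) :
    |weight f x| = weight (fun j s => |f j s|) x :=
  Finset.abs_prod _ _

lemma integral_weight (f : Fin (m + 1) → ℝ → ℝ) : ∫ x, weight f x = ∏ j, ∫ s, f j s :=
  integral_fintype_prod_volume_eq_prod f

lemma pd_weight (hf : ∀ j, ContDiff ℝ 1 (f j)) (i : Fin (m + 1)) (x : Fin (m + 1) → ℝ) :
    pd (weight f) i x = weight (Function.update f i (deriv (f i))) x := by
  classical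
  have h : HasFDerivAt (weight f) _ x := HasFDerivAt.finsetProd (u := Finset.univ)
    (g := fun j (y : Fin (m + 1) → ℝ) => f j (y j)) fun j _ =>
      (((hf j).differentiable one_ne_zero) _).hasDerivAt.comp_hasFDerivAt x
        (hasFDerivAt_apply (𝕜 := ℝ) (F' := fun _ : Fin (m + 1) => ℝ) j x)
  rw [pd, h.fderiv, weight, ← Finset.mul_prod_erase _ _ (Finset.mem_univ i)]
  simp [Pi.single_apply]
  rw [mul_comm]
  congr 1
  refine Finset.prod_congr rfl fun j hj => ?_
  rw [Function.update_of_ne (Finset.ne_of_mem_erase hj)]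

lemma supp_plateau {l r w : ℝ} (hw : 0 < w) : HasCompactSupport (plateau l r w) :=
  HasCompactSupport.intro isCompact_Icc fun _ hs =>
    plateau_eq_zero hw fun h => hs (Ioo_subset_Icc_self h)

lemma plateau_le_of_le {l r w l' r' w' : ℝ} (hw : 0 < w) (hw' : 0 < w') (hl : l' ≤ l - w)
    (hr : r + w ≤ r') (s : ℝ) : plateau l r w s ≤ plateau l' r' w' s := by
  by_cases h : s ∈ Ioo (l - w) (r + w)
  · rw [plateau_eq_one hw' ⟨hl.trans h.1.le, h.2.le.trans hr⟩]; exact (plateau_mem _ _ _ _).2
  · rw [plateau_eq_zero hw h]; exact (plateau_mem _ _ _ _).1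

lemma integral_plateau_le {l r w : ℝ} (hw : 0 < w) (hlr : l ≤ r) :
    ∫ s, plateau l r w s ≤ r - l + 2 * w := by
  rw [← setIntegral_eq_integral_of_forall_compl_eq_zero (s := Icc (l - w) (r + w))
    fun s hs => plateau_eq_zero hw fun h => hs (Ioo_subset_Icc_self h)]
  refine (setIntegral_mono (g := fun _ => (1 : ℝ))
    (contDiff_plateau l r w).continuous.continuousOn.integrableOn_Icc
    continuous_const.continuousOn.integrableOn_Icc fun s => (plateau_mem _ _ _ _).2).trans
    (le_of_eq ?_)
  rw [setIntegral_const, smul_eq_mul, mul_one, measureReal_def, Real.volume_Icc,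
    ENNReal.toReal_ofReal (by linarith)]
  ring

lemma integral_plateau_nonneg (l r w : ℝ) : 0 ≤ ∫ s, plateau l r w s :=
  integral_nonneg fun s => (plateau_mem l r w s).1

/-- The derivative of a plateau: size and total mass. -/
lemma exists_plateau_bound : ∃ C : ℝ, 0 ≤ C ∧ ∀ l r w : ℝ, 0 < w → l ≤ r →
    (∀ s, |deriv (plateau l r w) s| ≤ C / w * plateau (l - w) (r + w) w s) ∧
      ∫ s, |deriv (plateau l r w) s| ≤ C := by
  obtain ⟨C, hC0, hC⟩ := exists_deriv_plateau_bound
  refine ⟨2 * C, by positivity, fun l r w hw hlr => ?_⟩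
  have hz : ∀ s, s ∉ Icc (l - w) (r + w) → deriv (plateau l r w) s = 0 := fun s hs =>
    (hC l r w s hw).2 (fun h => hs ⟨h.1, by linarith [h.2]⟩) fun h => hs ⟨by linarith [h.1], h.2⟩
  refine ⟨fun s => ?_, ?_⟩
  · by_cases hs : s ∈ Icc (l - w) (r + w)
    · rw [plateau_eq_one hw hs, mul_one]
      exact (hC l r w s hw).1.trans (div_le_div_of_nonneg_right (by linarith) hw.le)
    · rw [hz s hs, abs_zero]
      have := (plateau_mem (l - w) (r + w) w s).1
      positivity
  · have hind : ∀ s, |deriv (plateau l r w) s| ≤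
        (Icc (l - w) l).indicator (fun _ => C / w) s + (Icc r (r + w)).indicator (fun _ => C / w) s := by
      intro s
      have h0 : 0 ≤ C / w := by positivity
      by_cases h1 : s ∈ Icc (l - w) l
      · rw [indicator_of_mem h1]
        exact (hC l r w s hw).1.trans
          (le_add_of_nonneg_right (indicator_nonneg (fun _ _ => h0) _))
      by_cases h2 : s ∈ Icc r (r + w)
      · rw [indicator_of_mem h2]
        exact (hC l r w s hw).1.trans
          (le_add_of_nonneg_left (indicator_nonneg (fun _ _ => h0) _))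
      · rw [(hC l r w s hw).2 h1 h2, abs_zero, indicator_of_notMem h1, indicator_of_notMem h2,
          add_zero]
    have hi : ∀ p q : ℝ, Integrable ((Icc p q).indicator fun _ => C / w) := fun p q =>
      (integrable_indicator_iff measurableSet_Icc).2 continuous_const.continuousOn.integrableOn_Icc
    refine (integral_mono_of_nonneg (Filter.Eventually.of_forall fun s => abs_nonneg _)
      ((hi _ _).add (hi _ _)) (Filter.Eventually.of_forall hind)).trans (le_of_eq ?_)
    rw [integral_add' (hi _ _) (hi _ _), integral_indicator measurableSet_Icc,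
      integral_indicator measurableSet_Icc, setIntegral_const, setIntegral_const, measureReal_def,
      measureReal_def, Real.volume_Icc, Real.volume_Icc, ENNReal.toReal_ofReal (by linarith),
      ENNReal.toReal_ofReal (by linarith), smul_eq_mul, smul_eq_mul]
    field_simp
    ring

/-- The cube weight of half side `R`. -/
def cube (R : ℝ) : (Fin (m + 1) → ℝ) → ℝ := weight fun _ => plateau (-R) R R

lemma contDiff_cube (R : ℝ) : ContDiff ℝ 1 (cube (m := m) R) :=
  contDiff_weight fun _ => contDiff_plateau _ _ _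

lemma supp_cube {R : ℝ} (hR : 0 < R) : HasCompactSupport (cube (m := m) R) :=
  supp_weight fun _ => supp_plateau hR

lemma cube_mem (R : ℝ) (x : Fin (m + 1) → ℝ) : 0 ≤ cube R x ∧ cube R x ≤ 1 :=
  ⟨weight_nonneg (fun _ s => (plateau_mem _ _ _ s).1) x, weight_le_one (fun _ s => plateau_mem _ _ _ s) x⟩

lemma cube_eq_one {R : ℝ} (hR : 0 < R) {x : Fin (m + 1) → ℝ} (h : ∀ j, |x j| ≤ R) : cube R x = 1 :=
  (Finset.prod_eq_one fun j _ => plateau_eq_one hR (abs_le.1 (h j)) : ∏ j, plateau (-R) R R (x j) = 1)

lemma cube_eq_zero {R : ℝ} (hR : 0 < R) {x : Fin (m + 1) → ℝ} {j : Fin (m + 1)}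
    (h : 2 * R ≤ |x j|) : cube R x = 0 :=
  Finset.prod_eq_zero (Finset.mem_univ j) (plateau_eq_zero hR fun h' => by
    rcases abs_cases (x j) with ⟨e, -⟩ | ⟨e, -⟩ <;> rw [e] at h <;> linarith [h'.1, h'.2])

lemma integral_cube_le {R : ℝ} (hR : 0 < R) : ∫ x, cube (m := m) R x ≤ (4 * R) ^ (m + 1) := by
  rw [cube, integral_weight, Finset.prod_const, Finset.card_univ, Fintype.card_fin]
  exact pow_le_pow_left₀ (integral_plateau_nonneg _ _ _)
    ((integral_plateau_le hR (by linarith)).trans (le_of_eq (by ring))) _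

/-- The size and the mass of the derivative of a cube weight. -/
lemma exists_cube_bound : ∃ C : ℝ, 0 ≤ C ∧ ∀ R : ℝ, 0 < R → ∀ i : Fin (m + 1),
    (∀ x, |pd (cube R) i x| ≤ C / R) ∧
      ∫ x, |pd (cube R) i x| ≤ C * (4 * R) ^ m := by
  obtain ⟨C, hC0, hC⟩ := exists_plateau_bound
  refine ⟨C, hC0, fun R hR i => ?_⟩
  obtain ⟨h1, h2⟩ := hC (-R) R R hR (by linarith)
  have e : ∀ x, |pd (cube R) i x| = |deriv (plateau (-R) R R) (x i)| *
      ∏ j ∈ Finset.univ.erase i, plateau (-R) R R (x j) := fun x => by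
    rw [cube, pd_weight (fun _ => contDiff_plateau _ _ _), weight,
      ← Finset.mul_prod_erase _ _ (Finset.mem_univ i), Function.update_self, abs_mul,
      Finset.abs_prod]
    congr 1
    refine Finset.prod_congr rfl fun j hj => ?_
    rw [Function.update_of_ne (Finset.ne_of_mem_erase hj), abs_of_nonneg (plateau_mem _ _ _ _).1]
  refine ⟨fun x => ?_, ?_⟩
  · rw [e]
    calc _ ≤ C / R * 1 := mul_le_mul ((h1 _).trans (mul_le_of_le_one_right (by positivity)
          (plateau_mem _ _ _ _).2)) (Finset.prod_le_one (fun j _ => (plateau_mem _ _ _ _).1)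
          fun j _ => (plateau_mem _ _ _ _).2)
          (Finset.prod_nonneg fun j _ => (plateau_mem _ _ _ _).1) (by positivity)
      _ = _ := mul_one _
  · have e2 : (fun x => |pd (cube R) i x|) =
        weight (Function.update (fun _ => plateau (-R) R R) i fun s => |deriv (plateau (-R) R R) s|) := by
      funext x
      rw [e, weight, ← Finset.mul_prod_erase _ _ (Finset.mem_univ i), Function.update_self]
      congr 1
      refine Finset.prod_congr rfl fun j hj => ?_
      rw [Function.update_of_ne (Finset.ne_of_mem_erase hj)]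
    rw [e2, integral_weight, ← Finset.mul_prod_erase _ _ (Finset.mem_univ i), Function.update_self]
    refine mul_le_mul h2 ?_ (Finset.prod_nonneg fun j hj => by
      rw [Function.update_of_ne (Finset.ne_of_mem_erase hj)]; exact integral_plateau_nonneg _ _ _) hC0
    refine le_of_le_of_eq (b := ∏ _j ∈ Finset.univ.erase i, (4 * R))
      (Finset.prod_le_prod (fun j hj => by
        rw [Function.update_of_ne (Finset.ne_of_mem_erase hj)]; exact integral_plateau_nonneg _ _ _)
        fun j hj => ?_) (by simp)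
    rw [Function.update_of_ne (Finset.ne_of_mem_erase hj)]
    exact (integral_plateau_le hR (by linarith)).trans (le_of_eq (by ring))

end Vale.Agent.P134.Recur
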