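import Vale.Agent.P134.Slab.Trunc
import Vale.Agent.P134.Slab.Poincare
import Vale.Agent.P134.Recur.Weight
import Vale.Agent.P134.Recur.Stability

/-!
# P134: where the defect is small, combinations of derivatives nearly have a sign
-/

noncomputable section

open MeasureTheory Set Real

namespace Vale.Agent.P134.Recur.Sol

open Vale.Agent.P134.Periodic (pd continuous_pd)
open Vale.Agent.P134.Slab (trunc contDiff_trunc abs_pd_trunc_le exists_sign poincare)

variable {m : ℕ}

/-- On a nonnegative weight which is one on the cell the integral dominates the one over the cell. -/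
lemma cell_le {R : ℝ} (hR : 0 < R) {G : (Fin (m + 1) → ℝ) → ℝ} (hG : Continuous G)
    (hG0 : ∀ x, 0 ≤ G x) :
    ∫ x in Icc (fun _ => -(2 * R)) (fun _ => 2 * R), G x ≤
      ∫ x, cube (2 * R) x ^ 2 * G x := by
  have hs : HasCompactSupport fun x => cube (2 * R) x ^ 2 * G x :=
    (supp_sq (supp_cube (m := m) (mul_pos two_pos hR))).mul_right
  have hi : Integrable fun x => cube (2 * R) x ^ 2 * G x :=
    integrable_of_supp (((contDiff_cube _).continuous.pow 2).fun_mul hG) hs
  calc _ = ∫ x in Icc (fun _ => -(2 * R)) (fun _ => 2 * R), cube (2 * R) x ^ 2 * G x := by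
        refine setIntegral_congr_fun measurableSet_Icc fun x hx => ?_
        rw [cube_eq_one (by linarith) fun j => abs_le.2 ⟨hx.1 j, hx.2 j⟩, one_pow, one_mul]
    _ ≤ _ := setIntegral_le_integral hi
        (Filter.Eventually.of_forall fun x => mul_nonneg (sq_nonneg _) (hG0 x))

/-- A combination of `u_j` and `u_a` nearly has a sign on a cell, up to the defect. -/
theorem cell_sign {R : ℝ} (hR : 0 < R) : ∃ c : ℝ, 0 ≤ c ∧ ∀ M : ℝ, 1 ≤ M → ∃ K' : ℝ, 0 ≤ K' ∧
    ∀ (P : Sol m) (j : Fin (m + 1)) (α β : ℝ), |α| ≤ 1 → |β| ≤ 1 →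
      ∫ x, cube R x ^ 2 * |α * pd P.u j x + β * pd P.u P.a x| ≤
        |∫ x, cube R x ^ 2 * (α * pd P.u j x + β * pd P.u P.a x)| + c / M +
          K' * ∫ x, cube (2 * R) x ^ 2 * P.defect2 x := by
  obtain ⟨C₁, hC₁0, hC₁⟩ := exists_cube_bound (m := m)
  obtain ⟨C, hC0, hC⟩ := exists_plateau_bound
  set n : ℝ := (m : ℝ) + 1 with hn
  set lo : Fin (m + 1) → ℝ := fun _ => -(2 * R) with hlo
  set hi : Fin (m + 1) → ℝ := fun _ => 2 * R with hhi
  set S := Icc lo hi with hS
  set V : ℝ := (4 * R) ^ (m + 1) with hV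
  set Q : ℝ := 4 * (n * (C₁ / (2 * R) * (C₁ * (4 * (2 * R)) ^ m))) + 4 * (4 * (2 * R)) ^ (m + 1)
    with hQ
  set A₁ : ℝ := n * V + Q with hA₁
  set CP : ℝ := 2 * 2 ^ (m + 1) * ∑ i : Fin (m + 1), (hi i - lo i) with hCP
  set Kg : ℝ := 2 * ((m : ℝ) + 3) with hKg
  have hn0 : 0 ≤ n := by positivity
  have hCP0 : 0 ≤ CP := mul_nonneg (by positivity) (Finset.sum_nonneg fun i _ => by
    simp only [hlo, hhi]; linarith)
  refine ⟨V + 2 * Kg * CP * A₁ + 6 * Kg * CP * (n * V + 2 * C * A₁), by positivity,
    fun M hM => ?_⟩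
  have hM0 : 0 < M := by linarith
  set E : ℝ := M * exp (3 * M) with hE
  set γ : ℝ := 1 / (E * M) with hγ
  have hγ0 : 0 < γ := by positivity
  refine ⟨6 * Kg * CP * (E * n * γ⁻¹), by positivity, fun P j α β hα hβ => ?_⟩
  set w := pd P.u P.a with hw
  set v := fun x => α * pd P.u j x + β * pd P.u P.a x with hv
  have hwc := P.contDiff_pd P.a
  have hvc : ContDiff ℝ 1 v :=
    (contDiff_const.mul (P.contDiff_pd j)).add (contDiff_const.mul hwc)
  have hw0 : ∀ x, w x ≠ 0 := fun x => (P.sol.mono x).ne'
  have hvb : ∀ x, |v x| ≤ Kg := fun x => by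
    have h1 : |α * pd P.u j x| ≤ 1 * P.K := by
      rw [abs_mul]; exact mul_le_mul hα (P.abs_pd_u_le j x) (abs_nonneg _) zero_le_one
    have h2 : |β * pd P.u P.a x| ≤ 1 * P.K := by
      rw [abs_mul]; exact mul_le_mul hβ (P.abs_pd_u_le _ x) (abs_nonneg _) zero_le_one
    simp only [hv, hKg]
    refine (abs_add_le _ _).trans ?_
    simp only [K] at h1 h2
    linarith
  have hD : ∀ x i, (pd v i x - v x / w x * pd w i x) ^ 2 ≤ P.defect2 x := fun x i => by
    have e : pd v i x - v x / w x * pd w i x = α * P.defect j i x := by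
      have hd : HasFDerivAt v _ x :=
        (((P.contDiff_pd j).differentiable one_ne_zero x).hasFDerivAt.const_mul α).fun_add
          ((hwc.differentiable one_ne_zero x).hasFDerivAt.const_mul β)
      rw [pd, hd.fderiv]
      simp only [hv, defect, ← hw, pd]
      have := hw0 x
      simp [hw, pd] at this ⊢
      field_simp
      ring
    rw [e, mul_pow]
    exact (mul_le_of_le_one_left (sq_nonneg _) ((sq_le_one_iff_abs_le_one α).2 hα)).trans
      (P.defect_sq_le j i x)
  -- the volume of the cell and the gradient of the logarithm on it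
  have hvol : ∫ _x in S, (1 : ℝ) = V := by
    rw [setIntegral_const, smul_eq_mul, mul_one, measureReal_def, hS,
      Real.volume_Icc_pi_toReal (fun i => by simp only [hlo, hhi]; linarith)]
    simp only [hlo, hhi, hV, Finset.prod_const, Finset.card_univ, Fintype.card_fin]
    ring
  have hI : ∀ {G : (Fin (m + 1) → ℝ) → ℝ}, Continuous G → IntegrableOn G S := fun hG =>
    hG.continuousOn.integrableOn_compact isCompact_Icc
  set q := fun x => ∑ i, (pd w i x / w x) ^ 2 with hq
  have hqc : Continuous q := continuous_finsetSum _ fun i _ =>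
    ((continuous_pd hwc i).div hwc.continuous hw0).pow 2
  have hQb : ∫ x in S, q x ≤ Q := by
    refine (cell_le hR hqc fun x => Finset.sum_nonneg fun i _ => sq_nonneg _).trans ?_
    refine (P.log_bound (contDiff_cube _) (supp_cube (by linarith))).trans
      (add_le_add (mul_le_mul_of_nonneg_left ?_ (by norm_num))
        (mul_le_mul_of_nonneg_left ?_ (by norm_num)))
    · have h2R : 0 < 2 * R := by linarith
      have isq : ∀ i, Integrable fun x : Fin (m + 1) → ℝ => pd (cube (2 * R)) i x ^ 2 := fun i =>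
        integrable_of_supp ((continuous_pd (contDiff_cube _) i).pow 2)
          (supp_sq (supp_pd (supp_cube h2R) i))
      rw [integral_finsetSum _ fun i _ => isq i]
      refine (Finset.sum_le_card_nsmul _ _ (C₁ / (2 * R) * (C₁ * (4 * (2 * R)) ^ m))
        fun i _ => ?_).trans (le_of_eq (by simp [hn]))
      obtain ⟨h1, h2⟩ := hC₁ (2 * R) h2R i
      refine le_trans ?_ (mul_le_mul_of_nonneg_left h2 (by positivity))
      rw [← integral_const_mul]
      refine integral_mono (isq i)
        ((integrable_of_supp (continuous_pd (contDiff_cube _) i).abs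
          (supp_pd (supp_cube h2R) i).norm).const_mul _) fun x => ?_
      rw [← sq_abs, sq]
      exact mul_le_mul_of_nonneg_right (h1 x) (abs_nonneg _)
    · refine le_trans (integral_mono (integrable_of_supp ((contDiff_cube _).continuous.pow 2)
        (supp_sq (supp_cube (by linarith))))
        (integrable_of_supp (contDiff_cube _).continuous (supp_cube (by linarith))) fun x => ?_)
        (integral_cube_le (by linarith))
      exact pow_le_of_le_one (cube_mem _ x).1 (cube_mem _ x).2 two_ne_zero
  set g := fun x => ∑ i, |pd w i x / w x| with hg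
  have hgc : Continuous g := continuous_finsetSum _ fun i _ =>
    ((continuous_pd hwc i).div hwc.continuous hw0).abs
  have hA : ∫ x in S, g x ≤ A₁ := by
    refine (setIntegral_mono (g := fun x => n + q x) (hI hgc)
      (hI (continuous_const.add hqc)) fun x => ?_).trans ?_
    · have : n = ∑ _i : Fin (m + 1), (1 : ℝ) := by simp [hn]
      simp only [hg, hq, this, ← Finset.sum_add_distrib]
      refine Finset.sum_le_sum fun i _ => ?_
      nlinarith [sq_nonneg (|pd w i x / w x| - 1), sq_abs (pd w i x / w x), abs_nonneg (pd w i x / w x)]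
    · rw [integral_add (hI continuous_const) (hI hqc)]
      have : ∫ _x in S, n = n * ∫ _x in S, (1 : ℝ) := by rw [← integral_const_mul, mul_one]
      rw [this, hvol, hA₁]
      linarith
  -- the truncation
  set h : (Fin (m + 1) → ℝ) → ℝ := fun x => log (w x) with hh
  have hhc : ContDiff ℝ 1 h := hwc.log hw0
  have hhd : ∀ x i, pd h i x = pd w i x / w x := fun x i => by
    rw [pd, ((hwc.differentiable one_ne_zero x).hasFDerivAt.log (hw0 x)).fderiv]
    simp [pd, div_eq_inv_mul, hw]
  have hlt : ∀ i, lo i < hi i := fun i => by simp only [hlo, hhi]; linarith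
  obtain ⟨hb, hhb⟩ := poincare lo hi hlt h hhc
  simp only [hhd] at hhb
  replace hhb : ∫ x in S, |h x - hb| ≤ CP * A₁ := hhb.trans (mul_le_mul_of_nonneg_left hA hCP0)
  set δ : ℝ := exp (-hb - M) / M with hδ
  have hδ0 : 0 < δ := by positivity
  set F := trunc w v hb M δ with hF
  have hFc : ContDiff ℝ 1 F := contDiff_trunc hwc hvc P.sol.mono hb M δ
  have hχd : ∀ s, |deriv (Slab.plateau (-1) 1 1) s| ≤ C := fun s => by
    refine ((hC (-1) 1 1 one_pos (by norm_num)).1 s).trans ?_
    rw [div_one]
    exact mul_le_of_le_one_right hC0 (Slab.plateau_mem _ _ _ _).2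
  have hEδ : exp (2 * M - hb) / δ = E := by
    rw [hδ, div_div_eq_mul_div, div_eq_iff (exp_pos _).ne', mul_comm _ M, hE, mul_assoc, ← exp_add,
      show 3 * M + (-hb - M) = 2 * M - hb by ring]
  have hFd : ∀ x, ∑ i, |pd F i x| ≤ E * n * γ + E * n * γ⁻¹ * P.defect2 x + 2 * C / M * g x := by
    intro x
    refine le_trans (Finset.sum_le_sum (g := fun i => E * γ + E * γ⁻¹ * P.defect2 x +
      2 * C / M * |pd w i x / w x|) fun i _ => ?_) ?_
    · refine (abs_pd_trunc_le hwc hvc P.sol.mono hb hM0 hδ0 hγ0 hχd i x).trans ?_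
      rw [hEδ, mul_add, ← mul_assoc]
      exact add_le_add (add_le_add le_rfl (mul_le_mul_of_nonneg_left (hD x i) (by positivity))) le_rfl
    · simp only [Finset.sum_add_distrib, ← Finset.mul_sum, Finset.sum_const, Finset.card_univ,
        Fintype.card_fin, nsmul_eq_mul, hg, hn, Nat.cast_add, Nat.cast_one]
      exact le_of_eq (by ring)
  obtain ⟨k, hk⟩ := poincare lo hi hlt F hFc
  set J := ∫ x, cube (2 * R) x ^ 2 * P.defect2 x with hJ
  have cD := P.continuous_defect2
  have hIF : ∫ x in S, |F x - k| ≤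
      CP * (E * n * γ * V + E * n * γ⁻¹ * J + 2 * C / M * A₁) := by
    refine hk.trans (mul_le_mul_of_nonneg_left ?_ hCP0)
    have c1 : Continuous fun _x : Fin (m + 1) → ℝ => E * n * γ := continuous_const
    have c2 : Continuous fun x => E * n * γ⁻¹ * P.defect2 x := continuous_const.fun_mul cD
    have c3 : Continuous fun x => 2 * C / M * g x := continuous_const.fun_mul hgc
    refine (setIntegral_mono (hI (continuous_finsetSum _ fun i _ => (continuous_pd hFc i).abs))
      (hI ((c1.fun_add c2).fun_add c3)) hFd).trans ?_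
    rw [integral_add (hI (c1.fun_add c2)) (hI c3), integral_add (hI c1) (hI c2),
      integral_const_mul (2 * C / M), integral_const_mul (E * n * γ⁻¹),
      show (∫ _x in S, E * n * γ) = E * n * γ * V by rw [← hvol, ← integral_const_mul, mul_one]]
    gcongr
    exact cell_le hR cD P.defect2_nonneg
  obtain ⟨sg, hsg, hpt⟩ := exists_sign (w := w) (v := v) (ρ := fun x => cube R x ^ 2) P.sol.mono hb
    hM0 hvb (fun x => ⟨sq_nonneg _, pow_le_one₀ (cube_mem R x).1 (cube_mem R x).2⟩) k
  -- integrate
  have hout : ∀ x ∉ S, cube R x ^ 2 = 0 := fun x hx => by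
    have : ∃ i, 2 * R ≤ |x i| := by
      by_contra! hlt'
      exact hx ⟨fun i => (abs_le.1 (hlt' i).le).1, fun i => (abs_le.1 (hlt' i).le).2⟩
    obtain ⟨i, hi'⟩ := this
    rw [cube_eq_zero hR hi', zero_pow two_ne_zero]
  rw [← setIntegral_eq_integral_of_forall_compl_eq_zero (s := S) fun x hx => by
      rw [hout x hx, zero_mul],
    ← setIntegral_eq_integral_of_forall_compl_eq_zero (s := S)
      (f := fun x => cube R x ^ 2 * v x) fun x hx => by rw [hout x hx, zero_mul]]
  have cρ : Continuous fun x : Fin (m + 1) → ℝ => cube R x ^ 2 := (contDiff_cube R).continuous.pow 2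
  have c1 : Continuous fun x => sg * (cube R x ^ 2 * v x) :=
    continuous_const.mul (cρ.mul hvc.continuous)
  have c2 : Continuous fun x => 2 * Kg / M * |h x - hb| :=
    continuous_const.mul (hhc.continuous.sub continuous_const).abs
  have c3 : Continuous fun x => 6 * Kg * |F x - k| :=
    continuous_const.mul (hFc.continuous.sub continuous_const).abs
  have hint := setIntegral_mono (μ := volume) (s := S) (hI (cρ.fun_mul hvc.continuous.abs))
    (hI (((c1.fun_add continuous_const).fun_add c2).fun_add c3)) hpt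
  rw [integral_add (hI ((c1.fun_add continuous_const).fun_add c2)) (hI c3),
    integral_add (hI (c1.fun_add continuous_const)) (hI c2),
    integral_add (hI c1) (hI continuous_const),
    integral_const_mul, integral_const_mul, integral_const_mul,
    ← mul_one M⁻¹, integral_const_mul, hvol] at hint
  have b0 : sg * ∫ x in S, cube R x ^ 2 * v x ≤ |∫ x in S, cube R x ^ 2 * v x| := by
    refine (le_abs_self _).trans ?_
    rw [abs_mul]
    exact mul_le_of_le_one_left (abs_nonneg _) hsg
  have hKg0 : 0 ≤ Kg := by positivity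
  have b2 := mul_le_mul_of_nonneg_left hhb (show 0 ≤ 2 * Kg / M by positivity)
  have b3 := mul_le_mul_of_nonneg_left hIF (show 0 ≤ 6 * Kg by positivity)
  refine hint.trans ?_
  have e : M⁻¹ * V + 2 * Kg / M * (CP * A₁) +
      6 * Kg * (CP * (E * n * γ * V + E * n * γ⁻¹ * J + 2 * C / M * A₁)) =
      (V + 2 * Kg * CP * A₁ + 6 * Kg * CP * (n * V + 2 * C * A₁)) / M +
        6 * Kg * CP * (E * n * γ⁻¹) * J := by
    rw [hγ]
    have : E ≠ 0 := by positivity
    field_simp
    ring
  linarith

end Vale.Agent.P134.Recur.Sol
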