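import Vale.Agent.P134.Recur.Cell

/-!
# P134: windows in the axes off three and their grids of cells
-/

noncomputable section

open MeasureTheory Set Real

namespace Vale.Agent.P134.Recur

open Vale.Agent.P134.Periodic (pd continuous_pd)
open Vale.Agent.P134.Slab (plateau contDiff_plateau plateau_mem plateau_eq_one plateau_eq_zero)

variable {m : ℕ}

/-- A solution with two further axes. -/
structure Frame (m : ℕ) where
  /-- the solution -/
  P : Sol m
  /-- the second axis -/
  b : Fin (m + 1)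
  /-- the third axis -/
  d : Fin (m + 1)
  hab : P.a ≠ b
  had : P.a ≠ d
  hbd : b ≠ d

namespace Frame

variable (F : Frame m)

/-- The frame of the translated solution. -/
def translate (z : Fin (m + 1) → ℝ) : Frame m where
  P := F.P.translate z
  b := F.b
  d := F.d
  hab := F.hab
  had := F.had
  hbd := F.hbd

/-- The axes off the frame. -/
def off : Finset (Fin (m + 1)) := Finset.univ \ {F.P.a, F.b, F.d}

/-- The number of axes off the frame. -/
def k : ℕ := F.off.card

lemma k_add_three : F.k + 3 = m + 1 := by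
  have h3 : ({F.P.a, F.b, F.d} : Finset (Fin (m + 1))).card = 3 := by
    rw [Finset.card_insert_of_notMem (by simp [F.hab, F.had]),
      Finset.card_insert_of_notMem (by simp [F.hbd]), Finset.card_singleton]
  have h := Finset.card_sdiff_add_card_eq_card (Finset.subset_univ {F.P.a, F.b, F.d})
  rw [h3, Finset.card_univ, Fintype.card_fin] at h
  exact h

/-- A function on the axes given by its values on the frame and off it. -/
def tri {α : Type*} (x y z e : α) (j : Fin (m + 1)) : α :=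
  if j = F.P.a then x else if j = F.b then y else if j = F.d then z else e

lemma prod_tri (x y z e : ℝ) : ∏ j, F.tri x y z e j = x * y * z * e ^ F.k := by
  rw [← Finset.prod_sdiff (Finset.subset_univ {F.P.a, F.b, F.d}),
    Finset.prod_insert (by simp [F.hab, F.had]), Finset.prod_pair F.hbd]
  have : ∀ j ∈ F.off, F.tri x y z e j = e := fun j hj => by
    simp only [off, Finset.mem_sdiff, Finset.mem_insert, Finset.mem_singleton, not_or] at hj
    simp [tri, hj.2.1, hj.2.2.1, hj.2.2.2]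
  rw [show (Finset.univ \ {F.P.a, F.b, F.d}) = F.off from rfl, Finset.prod_congr rfl this,
    Finset.prod_const]
  simp [tri, F.hab.symm, F.had.symm, F.hbd.symm, k]
  ring

lemma tri_cases {α : Type*} {p : α → Prop} {x y z e : α} (hx : p x) (hy : p y) (hz : p z) (he : p e)
    (j : Fin (m + 1)) : p (F.tri x y z e j) := by
  unfold tri
  split_ifs <;> assumption

lemma map_tri {α β : Type*} (g : α → β) (x y z e : α) (j : Fin (m + 1)) :
    g (F.tri x y z e j) = F.tri (g x) (g y) (g z) (g e) j := by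
  unfold tri
  split_ifs <;> rfl

/-- The window: half side `R` about `t` on the frame, `L` off it. -/
def win (t R L : ℝ) : (Fin (m + 1) → ℝ) → ℝ :=
  weight (F.tri (plateau (t - R) (t + R) R) (plateau (-R) R R) (plateau (-R) R R) (plateau (-L) L L))

lemma contDiff_win (t R L : ℝ) : ContDiff ℝ 1 (F.win t R L) :=
  contDiff_weight fun j => F.tri_cases (p := fun f => ContDiff ℝ 1 f) (contDiff_plateau _ _ _)
    (contDiff_plateau _ _ _) (contDiff_plateau _ _ _) (contDiff_plateau _ _ _) j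

lemma supp_win {t R L : ℝ} (hR : 0 < R) (hL : 0 < L) : HasCompactSupport (F.win t R L) :=
  supp_weight fun j => F.tri_cases (p := HasCompactSupport) (supp_plateau hR) (supp_plateau hR)
    (supp_plateau hR) (supp_plateau hL) j

lemma win_mem (t R L : ℝ) (x : Fin (m + 1) → ℝ) : 0 ≤ F.win t R L x ∧ F.win t R L x ≤ 1 :=
  have h : ∀ j s, 0 ≤ F.tri (plateau (t - R) (t + R) R) (plateau (-R) R R) (plateau (-R) R R)
      (plateau (-L) L L) j s ∧ F.tri (plateau (t - R) (t + R) R) (plateau (-R) R R) (plateau (-R) R R)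
      (plateau (-L) L L) j s ≤ 1 := fun j => F.tri_cases (p := fun f : ℝ → ℝ => ∀ s, 0 ≤ f s ∧ f s ≤ 1)
    (plateau_mem _ _ _) (plateau_mem _ _ _) (plateau_mem _ _ _) (plateau_mem _ _ _) j
  ⟨weight_nonneg (fun j s => (h j s).1) x, weight_le_one h x⟩

end Frame

/-- A grid covering `[-2L, 2L]` by intervals of half length `2R`. -/
lemma exists_grid {R L : ℝ} (hR : 0 < R) (hL : 8 * R ≤ L) :
    ∃ S : Finset ℝ, L / R ≤ (S.card : ℝ) ∧ (S.card : ℝ) ≤ 2 * (L / R) ∧ (∀ q ∈ S, |q| ≤ 4 * L) ∧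
      ∀ s,
      plateau (-L) L L s ≤ ∑ q ∈ S, plateau (-(2 * R)) (2 * R) (2 * R) (s - q) ^ 2 ∧
      ∑ q ∈ S, plateau (-(4 * R)) (4 * R) (4 * R) (s - q) ^ 2 ≤
        4 * plateau (-(4 * L)) (4 * L) (4 * L) s ^ 2 := by
  classical
  set Q : ℤ := ⌈L / (2 * R)⌉ with hQ
  have hQ1 : L / (2 * R) ≤ Q := Int.le_ceil _
  have hQ2 : (Q : ℝ) < L / (2 * R) + 1 := Int.ceil_lt_add_one _
  have hL0 : 0 < L := by linarith
  have hQ0 : (0 : ℝ) ≤ Q := le_trans (by positivity) hQ1
  have hQ0' : (0 : ℤ) ≤ Q := by exact_mod_cast hQ0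
  have hinj : Function.Injective fun q : ℤ => 4 * R * (q : ℝ) := fun p q h =>
    Int.cast_injective (mul_left_cancel₀ (by linarith : (4 * R) ≠ 0) h)
  set S := (Finset.Icc (-Q) Q).image fun q : ℤ => 4 * R * (q : ℝ) with hS
  have hcard : (S.card : ℝ) = 2 * Q + 1 := by
    rw [hS, Finset.card_image_of_injective _ hinj, Int.card_Icc]
    rw [show ((Q + 1 - -Q).toNat : ℝ) = (((Q + 1 - -Q).toNat : ℤ) : ℝ) by push_cast; rfl,
      Int.toNat_of_nonneg (by linarith)]
    push_cast; ring
  have hLR : 2 * (L / (2 * R)) = L / R := by field_simp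
  have h8 : 8 ≤ L / R := (le_div_iff₀ hR).2 hL
  have hmem : ∀ q ∈ S, |q| ≤ 4 * L := fun q hq => by
    simp only [hS, Finset.mem_image, Finset.mem_Icc] at hq
    obtain ⟨p, ⟨hp1, hp2⟩, rfl⟩ := hq
    have a1 : (-(Q : ℝ)) ≤ p := by exact_mod_cast hp1
    have a2 : (p : ℝ) ≤ Q := by exact_mod_cast hp2
    have h4 : 4 * R * (L / (2 * R) + 1) = 2 * L + 4 * R := by field_simp; ring
    have hQm := mul_le_mul_of_nonneg_left hQ2.le (show (0 : ℝ) ≤ 4 * R by linarith)
    rw [abs_le]
    constructor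
    · linarith [mul_le_mul_of_nonneg_left a1 (show (0 : ℝ) ≤ 4 * R by linarith)]
    · linarith [mul_le_mul_of_nonneg_left a2 (show (0 : ℝ) ≤ 4 * R by linarith)]
  refine ⟨S, by rw [hcard]; linarith, by rw [hcard]; linarith, hmem, fun s => ⟨?_, ?_⟩⟩
  · have hnn : ∀ q ∈ S, 0 ≤ plateau (-(2 * R)) (2 * R) (2 * R) (s - q) ^ 2 := fun q _ => sq_nonneg _
    by_cases hs : s ∈ Ioo (-L - L) (L + L)
    swap
    · rw [plateau_eq_zero hL0 hs]; exact Finset.sum_nonneg hnn
    set q : ℤ := round (s / (4 * R)) with hq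
    have hqd : |s - 4 * R * q| ≤ 2 * R := by
      have h := abs_sub_round (s / (4 * R))
      rw [← hq] at h
      calc |s - 4 * R * q| = |4 * R| * |s / (4 * R) - q| := by
            rw [← abs_mul]; congr 1; field_simp
        _ ≤ |4 * R| * (1 / 2) := by gcongr
        _ = _ := by rw [abs_of_pos (by linarith)]; ring
    have hqQ : q ∈ Finset.Icc (-Q) Q := by
      have h1 := abs_le.1 hqd
      have h4 : 4 * R * (L / (2 * R)) = 2 * L := by field_simp; ring
      have hQm := mul_le_mul_of_nonneg_left hQ1 (show (0 : ℝ) ≤ 4 * R by linarith)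
      rw [Finset.mem_Icc]
      constructor
      · by_contra! hlt
        have : (q : ℝ) ≤ -Q - 1 := by exact_mod_cast Int.le_sub_one_of_lt hlt
        nlinarith [mul_le_mul_of_nonneg_left this (show (0 : ℝ) ≤ 4 * R by linarith), hs.1]
      · by_contra! hlt
        have : (Q : ℝ) + 1 ≤ q := by exact_mod_cast Int.add_one_le_of_lt hlt
        nlinarith [mul_le_mul_of_nonneg_left this (show (0 : ℝ) ≤ 4 * R by linarith), hs.2]
    refine le_trans (plateau_mem _ _ _ _).2 (le_trans (le_of_eq ?_) (Finset.single_le_sum hnn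
      (Finset.mem_image_of_mem _ hqQ)))
    rw [plateau_eq_one (by linarith) (abs_le.1 hqd), one_pow]
  · by_cases hz : ∀ q ∈ S, plateau (-(4 * R)) (4 * R) (4 * R) (s - q) ^ 2 = 0
    · rw [Finset.sum_eq_zero hz]; positivity
    push Not at hz
    obtain ⟨q0, hq0, hne⟩ := hz
    have h1 : plateau (-(4 * L)) (4 * L) (4 * L) s = 1 := by
      simp only [hS, Finset.mem_image, Finset.mem_Icc] at hq0
      obtain ⟨q, ⟨hq1, hq2⟩, rfl⟩ := hq0
      have h := not_not.1 (mt (fun h => plateau_eq_zero (by linarith : (0 : ℝ) < 4 * R) h)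
        (pow_ne_zero_iff two_ne_zero |>.1 hne))
      have a1 : (-(Q : ℝ)) ≤ q := by exact_mod_cast hq1
      have a2 : (q : ℝ) ≤ Q := by exact_mod_cast hq2
      have h4 : 4 * R * (L / (2 * R) + 1) = 2 * L + 4 * R := by field_simp; ring
      have hQm := mul_le_mul_of_nonneg_left hQ2.le (show (0 : ℝ) ≤ 4 * R by linarith)
      refine plateau_eq_one (by linarith) ⟨?_, ?_⟩
      · nlinarith [mul_le_mul_of_nonneg_left a1 (show (0 : ℝ) ≤ 4 * R by linarith), h.1]
      · nlinarith [mul_le_mul_of_nonneg_left a2 (show (0 : ℝ) ≤ 4 * R by linarith), h.2]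
    rw [h1, one_pow, mul_one, hS, Finset.sum_image (fun p _ q _ h => hinj h)]
    set f := fun q : ℤ => plateau (-(4 * R)) (4 * R) (4 * R) (s - 4 * R * q) ^ 2
    set N := Finset.Icc (⌊s / (4 * R)⌋ - 1) (⌊s / (4 * R)⌋ + 2)
    have hout : ∀ q, f q ≠ 0 → q ∈ N := fun q hq => by
      have h := not_not.1 (mt (fun h => plateau_eq_zero (by linarith : (0 : ℝ) < 4 * R) h)
        (pow_ne_zero_iff two_ne_zero |>.1 hq))
      have e : s = 4 * R * (s / (4 * R)) := by field_simp
      have u1 : s / (4 * R) - 2 < q := by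
        nlinarith [h.2]
      have u2 : (q : ℝ) < s / (4 * R) + 2 := by
        nlinarith [h.1]
      have f1 := Int.floor_le (s / (4 * R))
      have f2 := Int.lt_floor_add_one (s / (4 * R))
      rw [Finset.mem_Icc]
      constructor
      · have : ((⌊s / (4 * R)⌋ : ℤ) : ℝ) - 2 < q := by linarith
        have : ⌊s / (4 * R)⌋ - 2 < q := by exact_mod_cast this
        omega
      · have : (q : ℝ) < ((⌊s / (4 * R)⌋ : ℤ) : ℝ) + 3 := by linarith
        have : q < ⌊s / (4 * R)⌋ + 3 := by exact_mod_cast this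
        omega
    calc ∑ q ∈ Finset.Icc (-Q) Q, f q ≤ ∑ q ∈ N, f q := by
          rw [← Finset.sum_filter_ne_zero]
          exact Finset.sum_le_sum_of_subset_of_nonneg
            (fun q hq => hout q (Finset.mem_filter.1 hq).2) fun q _ _ => sq_nonneg _
      _ ≤ N.card • (1 : ℝ) := Finset.sum_le_card_nsmul _ _ _ fun q _ =>
          pow_le_one₀ (plateau_mem _ _ _ _).1 (plateau_mem _ _ _ _).2
      _ = 4 := by
          rw [Int.card_Icc, show ⌊s / (4 * R)⌋ + 2 + 1 - (⌊s / (4 * R)⌋ - 1) = 4 by ring]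
          simp

namespace Frame

variable (F : Frame m)

/-- Cells about the grid points of a window. -/
lemma exists_cells (t : ℝ) {R L : ℝ} (hR : 0 < R) (hL : 8 * R ≤ L) :
    ∃ Z : Finset (Fin (m + 1) → ℝ), (∀ z ∈ Z, z F.P.a = t ∧ z F.b = 0 ∧ z F.d = 0 ∧
        ∀ j ∈ F.off, |z j| ≤ 4 * L) ∧
      (L / R) ^ F.k ≤ (Z.card : ℝ) ∧ (Z.card : ℝ) ≤ (2 * (L / R)) ^ F.k ∧
      ∀ x, F.win t R L x ≤ ∑ z ∈ Z, cube (2 * R) (x - z) ^ 2 ∧
        ∑ z ∈ Z, cube (4 * R) (x - z) ^ 2 ≤ 4 ^ F.k * F.win t (8 * R) (4 * L) x ^ 2 := by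
  classical
  obtain ⟨S, hc1, hc2, hmem, hS⟩ := exists_grid hR hL
  set T : Fin (m + 1) → Finset ℝ := F.tri {t} {0} {0} S with hT
  have hLR : 0 ≤ L / R := div_nonneg (by linarith) hR.le
  have hcard : ((Fintype.piFinset T).card : ℝ) = (S.card : ℝ) ^ F.k := by
    rw [Fintype.card_piFinset, Nat.cast_prod]
    simp only [hT, F.map_tri (fun A : Finset ℝ => (A.card : ℝ))]
    rw [F.prod_tri]
    simp
  have hsum : ∀ (r : ℝ) x, ∑ z ∈ Fintype.piFinset T, cube r (x - z) ^ 2 =
      ∏ j, ∑ q ∈ T j, plateau (-r) r r (x j - q) ^ 2 := fun r x => by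
    rw [Finset.prod_univ_sum]
    refine Finset.sum_congr rfl fun z _ => ?_
    rw [cube, weight, ← Finset.prod_pow]
    rfl
  refine ⟨Fintype.piFinset T, fun z hz => ?_, ?_, ?_, fun x => ⟨?_, ?_⟩⟩
  · rw [Fintype.mem_piFinset] at hz
    refine ⟨?_, ?_, ?_, fun j hj => ?_⟩
    · simpa [hT, tri] using hz F.P.a
    · simpa [hT, tri, F.hab.symm] using hz F.b
    · simpa [hT, tri, F.had.symm, F.hbd.symm] using hz F.d
    · simp only [off, Finset.mem_sdiff, Finset.mem_insert, Finset.mem_singleton, not_or] at hj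
      exact hmem _ (by simpa [hT, tri, hj.2.1, hj.2.2.1, hj.2.2.2] using hz j)
  · rw [hcard]; exact pow_le_pow_left₀ hLR hc1 _
  · rw [hcard]; exact pow_le_pow_left₀ (Nat.cast_nonneg _) hc2 _
  · have hone : ∀ c s : ℝ, plateau (c - R) (c + R) R s ≤
        ∑ q ∈ ({c} : Finset ℝ), plateau (-(2 * R)) (2 * R) (2 * R) (s - q) ^ 2 := fun c s => by
      rw [Finset.sum_singleton]
      by_cases h : s ∈ Ioo (c - R - R) (c + R + R)
      · rw [plateau_eq_one (by linarith : (0 : ℝ) < 2 * R) ⟨by linarith [h.1], by linarith [h.2]⟩,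
          one_pow]
        exact (plateau_mem _ _ _ _).2
      · rw [plateau_eq_zero hR h]; positivity
    rw [hsum, win, weight]
    refine Finset.prod_le_prod (fun j _ => ?_) fun j _ => ?_
    · exact F.tri_cases (p := fun f : ℝ → ℝ => ∀ s, 0 ≤ f s) (fun s => (plateau_mem _ _ _ s).1)
        (fun s => (plateau_mem _ _ _ s).1) (fun s => (plateau_mem _ _ _ s).1)
        (fun s => (plateau_mem _ _ _ s).1) j _
    · have h0 := hone 0 (x j)
      rw [zero_sub, zero_add] at h0
      simp only [hT, tri]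
      by_cases ha : j = F.P.a
      · simp only [if_pos ha]; exact hone t _
      by_cases hb : j = F.b
      · simp only [if_neg ha, if_pos hb]; exact h0
      by_cases hd : j = F.d
      · simp only [if_neg ha, if_neg hb, if_pos hd]; exact h0
      · simp only [if_neg ha, if_neg hb, if_neg hd]; exact (hS _).1
  · have hone : ∀ c s : ℝ, ∑ q ∈ ({c} : Finset ℝ), plateau (-(4 * R)) (4 * R) (4 * R) (s - q) ^ 2 ≤
        plateau (c - 8 * R) (c + 8 * R) (8 * R) s ^ 2 := fun c s => by
      rw [Finset.sum_singleton]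
      refine pow_le_pow_left₀ (plateau_mem _ _ _ _).1 ?_ 2
      by_cases h : s - c ∈ Ioo (-(4 * R) - 4 * R) (4 * R + 4 * R)
      · rw [plateau_eq_one (by linarith : (0 : ℝ) < 8 * R) (show s ∈ Icc (c - 8 * R) (c + 8 * R) from
          ⟨by linarith [h.1], by linarith [h.2]⟩)]
        exact (plateau_mem _ _ _ _).2
      · rw [plateau_eq_zero (by linarith) h]; exact (plateau_mem _ _ _ _).1
    rw [hsum, win, weight, ← Finset.prod_pow, show (4 : ℝ) ^ F.k = ∏ j, F.tri 1 1 1 (4 : ℝ) j by
      rw [F.prod_tri]; ring, ← Finset.prod_mul_distrib]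
    refine Finset.prod_le_prod (fun j _ => Finset.sum_nonneg fun q _ => sq_nonneg _) fun j _ => ?_
    have h0 := hone 0 (x j)
    rw [zero_sub, zero_add] at h0
    simp only [hT, tri]
    by_cases ha : j = F.P.a
    · simp only [if_pos ha, one_mul]; exact hone t _
    by_cases hb : j = F.b
    · simp only [if_neg ha, if_pos hb, one_mul]; exact h0
    by_cases hd : j = F.d
    · simp only [if_neg ha, if_neg hb, if_pos hd, one_mul]; exact h0
    · simp only [if_neg ha, if_neg hb, if_neg hd]; exact (hS _).2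

end Frame

end Vale.Agent.P134.Recur
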