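import Vale.Agent.P134.Slab.Window
import Vale.Agent.P134.Recur.Window

/-!
# P134: averaged cut-offs and a cell row with small defect
-/

noncomputable section

open MeasureTheory Set Real

namespace Vale.Agent.P134.Recur

open Vale.Agent.P134.Periodic (pd continuous_pd)
open Vale.Agent.P134.Slab (plateau contDiff_plateau plateau_mem plateau_eq_one plateau_eq_zero)

variable {m : ℕ}

lemma abs_pd_weight_le {f g : Fin (m + 1) → ℝ → ℝ} (hf : ∀ j, ContDiff ℝ 1 (f j)) {i : Fin (m + 1)}
    {c : ℝ} (h : ∀ j s, 0 ≤ f j s ∧ f j s ≤ g j s) (hi : ∀ s, |deriv (f i) s| ≤ c * g i s)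
    (x : Fin (m + 1) → ℝ) : |pd (weight f) i x| ≤ c * weight g x := by
  rw [pd_weight hf, abs_weight, weight, weight, ← Finset.mul_prod_erase _ _ (Finset.mem_univ i),
    Function.update_self, ← Finset.mul_prod_erase _ (fun j => g j (x j)) (Finset.mem_univ i), ← mul_assoc]
  refine mul_le_mul (hi _) (Finset.prod_le_prod (fun j _ => abs_nonneg _) fun j hj => ?_)
    (Finset.prod_nonneg fun j _ => abs_nonneg _) ((abs_nonneg _).trans (hi _))
  rw [Function.update_of_ne (Finset.ne_of_mem_erase hj), abs_of_nonneg (h j _).1]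
  exact (h j _).2

/-- The average of `N` product weights. -/
def avgW (N : ℕ) (f : ℕ → Fin (m + 1) → ℝ → ℝ) (x : Fin (m + 1) → ℝ) : ℝ :=
  (N : ℝ)⁻¹ * ∑ l ∈ Finset.range N, weight (f l) x

lemma contDiff_avgW {N : ℕ} {f : ℕ → Fin (m + 1) → ℝ → ℝ} (hf : ∀ l j, ContDiff ℝ 1 (f l j)) :
    ContDiff ℝ 1 (avgW N f) :=
  contDiff_const.mul (ContDiff.sum fun l _ => contDiff_weight (hf l))

lemma supp_avgW {N : ℕ} {f : ℕ → Fin (m + 1) → ℝ → ℝ} (hs : ∀ l j, HasCompactSupport (f l j)) :
    HasCompactSupport (avgW N f) := by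
  refine HasCompactSupport.mul_left (f := fun _ => (N : ℝ)⁻¹) ?_
  induction N with
  | zero => exact HasCompactSupport.intro isCompact_empty fun x _ => by simp
  | succ n ih =>
    simp only [Finset.sum_range_succ]
    exact ih.add (supp_weight (hs n))

lemma pd_avgW {N : ℕ} {f : ℕ → Fin (m + 1) → ℝ → ℝ} (hf : ∀ l j, ContDiff ℝ 1 (f l j))
    (i : Fin (m + 1)) (x : Fin (m + 1) → ℝ) :
    pd (avgW N f) i x = (N : ℝ)⁻¹ * ∑ l ∈ Finset.range N, pd (weight (f l)) i x := by
  have hd : HasFDerivAt (avgW N f) ((N : ℝ)⁻¹ • ∑ l ∈ Finset.range N, fderiv ℝ (weight (f l)) x) x :=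
    (HasFDerivAt.fun_sum fun l _ =>
      ((contDiff_weight (hf l)).differentiable one_ne_zero x).hasFDerivAt).const_mul _
  rw [pd, hd.fderiv]
  simp [pd]

lemma sq_pd_avgW_const {N : ℕ} {f : ℕ → Fin (m + 1) → ℝ → ℝ} (hf : ∀ l j, ContDiff ℝ 1 (f l j))
    {i : Fin (m + 1)} {c G : ℝ} {x : Fin (m + 1) → ℝ} (hc : 0 ≤ c) (hG : 0 ≤ G) (hG1 : G ≤ 1)
    (h : ∀ l < N, |pd (weight (f l)) i x| ≤ c * G) : pd (avgW N f) i x ^ 2 ≤ c ^ 2 * G := by
  have h1 : |pd (avgW N f) i x| ≤ c * G := by
    rw [pd_avgW hf, abs_mul, abs_inv, Nat.abs_cast]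
    rcases Nat.eq_zero_or_pos N with h0 | h0
    · subst h0; simp; positivity
    refine (mul_le_mul_of_nonneg_left ((Finset.abs_sum_le_sum_abs _ _).trans
      (Finset.sum_le_card_nsmul _ _ _ fun l hl => h l (Finset.mem_range.1 hl))) (by positivity)).trans
      (le_of_eq ?_)
    rw [Finset.card_range, nsmul_eq_mul, inv_mul_cancel_left₀ (by positivity)]
  calc pd (avgW N f) i x ^ 2 = |pd (avgW N f) i x| ^ 2 := (sq_abs _).symm
    _ ≤ (c * G) ^ 2 := pow_le_pow_left₀ (abs_nonneg _) h1 2
    _ ≤ c ^ 2 * G := by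
      rw [mul_pow]
      exact mul_le_mul_of_nonneg_left (pow_le_of_le_one hG hG1 two_ne_zero) (sq_nonneg _)

lemma sq_pd_avgW_disj {N : ℕ} {f : ℕ → Fin (m + 1) → ℝ → ℝ} (hf : ∀ l j, ContDiff ℝ 1 (f l j))
    {i : Fin (m + 1)} {x : Fin (m + 1) → ℝ}
    (h : ∀ l l', l < l' → l' < N → pd (weight (f l)) i x = 0 ∨ pd (weight (f l')) i x = 0) :
    pd (avgW N f) i x ^ 2 =
      (N : ℝ)⁻¹ ^ 2 * ∑ l ∈ Finset.range N, pd (weight (f l)) i x ^ 2 := by
  rw [pd_avgW hf, mul_pow, Slab.Setup.sq_sum_of_single]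
  intro l hl l' hl' hne
  rcases lt_or_gt_of_ne hne with hlt | hlt
  · rcases h l l' hlt (Finset.mem_range.1 hl') with e | e <;> simp [e]
  · rcases h l' l hlt (Finset.mem_range.1 hl) with e | e <;> simp [e]

/-- Plateaus of radii in ratio four have derivatives with disjoint supports. -/
lemma deriv_plateau_disj {ρ : ℝ} (hρ : 0 < ρ) {l l' : ℕ} (h : l < l') (s : ℝ) :
    deriv (plateau (-(ρ * 4 ^ l)) (ρ * 4 ^ l) (ρ * 4 ^ l)) s = 0 ∨
      deriv (plateau (-(ρ * 4 ^ l')) (ρ * 4 ^ l') (ρ * 4 ^ l')) s = 0 := by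
  obtain ⟨C, hC0, hC⟩ := Slab.exists_deriv_plateau_bound
  have h4 : 4 * (ρ * 4 ^ l) ≤ ρ * 4 ^ l' := by
    have : (4 : ℝ) ^ (l + 1) ≤ 4 ^ l' := pow_le_pow_right₀ (by norm_num) h
    calc 4 * (ρ * 4 ^ l) = ρ * 4 ^ (l + 1) := by ring
      _ ≤ _ := mul_le_mul_of_nonneg_left this hρ.le
  have hp : 0 < ρ * 4 ^ l := by positivity
  have hp' : 0 < ρ * 4 ^ l' := by positivity
  by_cases hs : |s| ≤ 2 * (ρ * 4 ^ l)
  · right
    rw [abs_le] at hs
    refine (hC _ _ _ s hp').2 (fun hh => ?_) fun hh => ?_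
    · linarith [hh.2, hs.1]
    · linarith [hh.1, hs.2]
  · left
    refine (hC _ _ _ s hp).2 (fun hh => hs (abs_le.2 ⟨?_, ?_⟩)) fun hh => hs (abs_le.2 ⟨?_, ?_⟩) <;>
      linarith [hh.1, hh.2]

namespace Frame

lemma integral_tri_le (F : Frame m) {x y z e : ℝ → ℝ} {X Y Z E : ℝ} (hx : 0 ≤ ∫ s, x s)
    (hy : 0 ≤ ∫ s, y s) (hz : 0 ≤ ∫ s, z s) (he : 0 ≤ ∫ s, e s) (hX : ∫ s, x s ≤ X)
    (hY : ∫ s, y s ≤ Y) (hZ : ∫ s, z s ≤ Z) (hE : ∫ s, e s ≤ E) :
    ∫ p, weight (F.tri x y z e) p ≤ X * Y * Z * E ^ F.k := by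
  rw [integral_weight]
  simp only [F.map_tri (fun f : ℝ → ℝ => ∫ s, f s)]
  rw [F.prod_tri]
  have hX0 := hx.trans hX
  have hY0 := hy.trans hY
  have hZ0 := hz.trans hZ
  gcongr

/-- Some row of windows along the axis carries a small defect. -/
theorem exists_small_defect {R ε : ℝ} (hR : 1 ≤ R) (hε : 0 < ε) :
    ∃ T : ℝ, 0 ≤ T ∧ ∃ L₁ : ℝ, ∀ F : Frame m, ∀ L, L₁ ≤ L → ∃ t, 0 ≤ t ∧ t ≤ T ∧
      ∫ x, F.win t R L x ^ 2 * F.P.defect2 x ≤ ε * L ^ F.k := by
  obtain ⟨C, hC0, hC⟩ := exists_plateau_bound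
  set K : ℝ := (m : ℝ) + 3
  set n : ℝ := (m : ℝ) + 1
  set A : ℝ := n * 4 * K ^ 2 * n * C ^ 2 * 216 * 12 ^ (m + 1) + 1 with hA
  have hA0 : 0 < A := by positivity
  obtain ⟨N, hN⟩ := exists_nat_gt (64 * R * A / ε)
  have hR0 : 0 < R := by linarith
  have hN0 : (0 : ℝ) < N := lt_of_le_of_lt (by positivity) hN
  set rN : ℝ := 2 * R * 4 ^ N with hrN
  obtain ⟨M, hM⟩ := exists_nat_gt (A * rN ^ 2 / (2 * R * ε) + 1)
  have hM1 : (1 : ℝ) ≤ M := le_trans (le_add_of_nonneg_left (by positivity)) hM.le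
  set T : ℝ := 4 * R * M with hT
  have hT2 : 2 * R ≤ T := by
    rw [hT]
    exact (mul_le_mul_of_nonneg_right (show (2 : ℝ) ≤ 4 by norm_num) hR0.le).trans
      (le_mul_of_one_le_right (by positivity) hM1)
  have hT0 : 0 < T := by linarith
  refine ⟨T, hT0.le, T, fun F L hL => ?_⟩
  have hL0 : 0 < L := hT0.trans_le hL
  set r : ℕ → ℝ := fun l => 2 * R * 4 ^ l with hr
  have hr0 : ∀ l, 0 < r l := fun l => by simp only [hr]; positivity
  have hrle : ∀ l, l < N → 2 * r l ≤ rN := fun l hl => by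
    have h4 : (4 : ℝ) * 4 ^ l ≤ 4 ^ N := by
      rw [← pow_succ']; exact pow_le_pow_right₀ (by norm_num) hl
    have : 0 < (4 : ℝ) ^ l := by positivity
    simp only [hr, hrN]
    nlinarith
  have hrN0 : 0 < rN := by positivity
  set χ := plateau (-(2 * R)) T T with hχ
  set ξ := plateau (-(2 * L)) (2 * L) (2 * L) with hξ
  set p : ℕ → ℝ → ℝ := fun l => plateau (-(r l)) (r l) (r l) with hp
  set X := plateau (-(2 * R) - T) (T + T) T with hX
  set Y := plateau (-rN) rN rN with hY
  set Ξ := plateau (-(2 * L) - 2 * L) (2 * L + 2 * L) (2 * L) with hΞ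
  set Y' : ℕ → ℝ → ℝ := fun l => plateau (-(r l) - r l) (r l + r l) (r l) with hY'
  set f : ℕ → Fin (m + 1) → ℝ → ℝ := fun l => F.tri χ (p l) (p l) ξ with hf
  set η := avgW N f with hη
  have hfc : ∀ l j, ContDiff ℝ 1 (f l j) := fun l => F.tri_cases (p := fun g => ContDiff ℝ 1 g)
    (contDiff_plateau _ _ _) (contDiff_plateau _ _ _) (contDiff_plateau _ _ _) (contDiff_plateau _ _ _)
  have hfs : ∀ l j, HasCompactSupport (f l j) := fun l => F.tri_cases (p := HasCompactSupport)
    (supp_plateau hT0) (supp_plateau (hr0 l)) (supp_plateau (hr0 l)) (supp_plateau (by linarith))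
  have hηc : ContDiff ℝ 1 η := contDiff_avgW hfc
  have hηs : HasCompactSupport η := supp_avgW hfs
  -- the comparison weights
  set G := weight (F.tri X Y Y Ξ) with hG
  have hGb : ∀ j, ∀ s, 0 ≤ F.tri X Y Y Ξ j s ∧ F.tri X Y Y Ξ j s ≤ 1 := F.tri_cases
    (p := fun g : ℝ → ℝ => ∀ s, 0 ≤ g s ∧ g s ≤ 1) (plateau_mem _ _ _) (plateau_mem _ _ _)
    (plateau_mem _ _ _) (plateau_mem _ _ _)
  have hχX : ∀ s, χ s ≤ X s := plateau_le_of_le hT0 hT0 le_rfl le_rfl
  have hξΞ : ∀ s, ξ s ≤ Ξ s := plateau_le_of_le (by linarith) (by linarith) le_rfl le_rfl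
  have hpY : ∀ l < N, ∀ s, p l s ≤ Y s := fun l hl => plateau_le_of_le (hr0 l) hrN0
    (by linarith [hrle l hl]) (by linarith [hrle l hl])
  have hpY' : ∀ l, ∀ s, p l s ≤ Y' l s := fun l => plateau_le_of_le (hr0 l) (hr0 l) le_rfl le_rfl
  -- derivatives in the increasing direction and off the frame
  have hflat : ∀ i, i ≠ F.b → i ≠ F.d → ∀ x, pd η i x ^ 2 ≤ (C / T) ^ 2 * G x := by
    intro i hib hid x
    refine sq_pd_avgW_const hfc (by positivity) (weight_nonneg (fun j s => (hGb j s).1) x)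
      (weight_le_one hGb x) fun l hl => ?_
    refine abs_pd_weight_le (hfc l) (fun j s => ⟨?_, ?_⟩) (fun s => ?_) x
    · exact F.tri_cases (p := fun g : ℝ → ℝ => ∀ s, 0 ≤ g s) (fun s => (plateau_mem _ _ _ s).1)
        (fun s => (plateau_mem _ _ _ s).1) (fun s => (plateau_mem _ _ _ s).1)
        (fun s => (plateau_mem _ _ _ s).1) j s
    · simp only [hf, tri]
      by_cases ha : j = F.P.a
      · simp only [if_pos ha]; exact hχX s
      by_cases hb : j = F.b
      · simp only [if_neg ha, if_pos hb]; exact hpY l hl s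
      by_cases hd : j = F.d
      · simp only [if_neg ha, if_neg hb, if_pos hd]; exact hpY l hl s
      · simp only [if_neg ha, if_neg hb, if_neg hd]; exact hξΞ s
    · simp only [hf, tri]
      by_cases ha : i = F.P.a
      · simp only [if_pos ha]
        exact (hC (-(2 * R)) T T hT0 (by linarith)).1 s
      · simp only [if_neg ha, if_neg hib, if_neg hid]
        refine ((hC (-(2 * L)) (2 * L) (2 * L) (by linarith) (by linarith)).1 s).trans
          (mul_le_mul_of_nonneg_right ?_ (plateau_mem _ _ _ _).1)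
        exact div_le_div_of_nonneg_left hC0 hT0 (by linarith)
  -- derivatives in the other two directions of the frame
  have hcross : ∀ i, i = F.b ∨ i = F.d → ∀ x, pd η i x ^ 2 ≤ (N : ℝ)⁻¹ ^ 2 *
      ∑ l ∈ Finset.range N, (C / r l) ^ 2 * weight (F.tri X (Y' l) (Y' l) Ξ) x := by
    intro i hi x
    have hia : i ≠ F.P.a := by
      rcases hi with rfl | rfl
      · exact F.hab.symm
      · exact F.had.symm
    have hfi : ∀ l, f l i = p l := fun l => by
      rcases hi with rfl | rfl
      · simp [hf, tri, F.hab.symm]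
      · simp [hf, tri, F.had.symm, F.hbd.symm]
    have hYi : ∀ l, F.tri X (Y' l) (Y' l) Ξ i = Y' l := fun l => by
      rcases hi with rfl | rfl
      · simp [tri, F.hab.symm]
      · simp [tri, F.had.symm, F.hbd.symm]
    rw [hη, sq_pd_avgW_disj hfc fun l l' hll _ => ?_]
    swap
    · rcases deriv_plateau_disj (show 0 < 2 * R by linarith) hll (x i) with e | e
      · refine Or.inl ?_
        rw [pd_weight (hfc l)]
        refine Finset.prod_eq_zero (Finset.mem_univ i) ?_
        rw [Function.update_self, hfi]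
        exact e
      · refine Or.inr ?_
        rw [pd_weight (hfc l')]
        refine Finset.prod_eq_zero (Finset.mem_univ i) ?_
        rw [Function.update_self, hfi]
        exact e
    refine mul_le_mul_of_nonneg_left (Finset.sum_le_sum fun l _ => ?_) (sq_nonneg _)
    have hGl : ∀ j, ∀ s, 0 ≤ F.tri X (Y' l) (Y' l) Ξ j s ∧ F.tri X (Y' l) (Y' l) Ξ j s ≤ 1 :=
      F.tri_cases (p := fun g : ℝ → ℝ => ∀ s, 0 ≤ g s ∧ g s ≤ 1) (plateau_mem _ _ _)
        (plateau_mem _ _ _) (plateau_mem _ _ _) (plateau_mem _ _ _)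
    have hb : |pd (weight (f l)) i x| ≤ C / r l * weight (F.tri X (Y' l) (Y' l) Ξ) x := by
      refine abs_pd_weight_le (hfc l) (fun j s => ⟨?_, ?_⟩) (fun s => ?_) x
      · exact F.tri_cases (p := fun g : ℝ → ℝ => ∀ s, 0 ≤ g s) (fun s => (plateau_mem _ _ _ s).1)
          (fun s => (plateau_mem _ _ _ s).1) (fun s => (plateau_mem _ _ _ s).1)
          (fun s => (plateau_mem _ _ _ s).1) j s
      · simp only [hf, tri]
        by_cases ha : j = F.P.a
        · simp only [if_pos ha]; exact hχX s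
        by_cases hb : j = F.b
        · simp only [if_neg ha, if_pos hb]; exact hpY' l s
        by_cases hd : j = F.d
        · simp only [if_neg ha, if_neg hb, if_pos hd]; exact hpY' l s
        · simp only [if_neg ha, if_neg hb, if_neg hd]; exact hξΞ s
      · rw [hfi, hYi]
        exact (hC _ _ _ (hr0 l) (by linarith [hr0 l])).1 s
    rw [← sq_abs]
    refine (pow_le_pow_left₀ (abs_nonneg _) hb 2).trans ?_
    rw [mul_pow]
    exact mul_le_mul_of_nonneg_left (pow_le_of_le_one (weight_nonneg (fun j s => (hGl j s).1) x)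
      (weight_le_one hGl x) two_ne_zero) (sq_nonneg _)
  -- the Dirichlet integral
  have hsX : ∫ s, X s ≤ 6 * T := (integral_plateau_le hT0 (by linarith)).trans (by linarith)
  have hsΞ : ∫ s, Ξ s ≤ 12 * L := (integral_plateau_le (by linarith) (by linarith)).trans (le_of_eq (by ring))
  have hnn : ∀ l r w : ℝ, 0 ≤ ∫ s, plateau l r w s := integral_plateau_nonneg
  have hk12 : (12 : ℝ) ^ F.k ≤ 12 ^ (m + 1) :=
    pow_le_pow_right₀ (by norm_num) (by have := F.k_add_three; omega)
  have hid : ∀ i, Integrable fun x => pd η i x ^ 2 := fun i =>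
    integrable_of_supp ((continuous_pd hηc i).pow 2) (Sol.supp_sq (supp_pd hηs i))
  have hGs : HasCompactSupport G := supp_weight fun j => F.tri_cases (p := HasCompactSupport)
    (supp_plateau hT0) (supp_plateau hrN0) (supp_plateau hrN0) (supp_plateau (by linarith)) j
  have hGc : Continuous G := continuous_weight fun j => F.tri_cases (p := fun g => Continuous g)
    (contDiff_plateau _ _ _).continuous (contDiff_plateau _ _ _).continuous
    (contDiff_plateau _ _ _).continuous (contDiff_plateau _ _ _).continuous j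
  set B : ℝ := C ^ 2 * 216 * 12 ^ (m + 1) * L ^ F.k * (rN ^ 2 / T + 8 * T / N) with hB
  have hgrad : ∀ i, ∫ x, pd η i x ^ 2 ≤ B := by
    intro i
    have hLk : (0 : ℝ) ≤ L ^ F.k := by positivity
    by_cases hi : i = F.b ∨ i = F.d
    · have hc : ∀ l, Continuous (weight (F.tri X (Y' l) (Y' l) Ξ)) := fun l =>
        continuous_weight fun j => F.tri_cases (p := fun g => Continuous g)
          (contDiff_plateau _ _ _).continuous (contDiff_plateau _ _ _).continuous
          (contDiff_plateau _ _ _).continuous (contDiff_plateau _ _ _).continuous j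
      have hs : ∀ l, HasCompactSupport (weight (F.tri X (Y' l) (Y' l) Ξ)) := fun l =>
        supp_weight fun j => F.tri_cases (p := HasCompactSupport) (supp_plateau hT0)
          (supp_plateau (hr0 l)) (supp_plateau (hr0 l)) (supp_plateau (by linarith)) j
      have hi' : ∀ l, Integrable fun x => (C / r l) ^ 2 * weight (F.tri X (Y' l) (Y' l) Ξ) x :=
        fun l => (integrable_of_supp (hc l) (hs l)).const_mul _
      refine (integral_mono (hid i) ((integrable_finsetSum _ fun l _ => hi' l).const_mul _)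
        (hcross i hi)).trans ?_
      rw [integral_const_mul, integral_finsetSum _ fun l _ => hi' l]
      refine (mul_le_mul_of_nonneg_left (Finset.sum_le_card_nsmul _ _
        (C ^ 2 * 216 * 12 ^ (m + 1) * L ^ F.k * T) fun l _ => ?_) (sq_nonneg _)).trans ?_
      · rw [integral_const_mul]
        have hsY : ∫ s, Y' l s ≤ 6 * r l :=
          (integral_plateau_le (hr0 l) (by linarith [hr0 l])).trans (le_of_eq (by ring))
        refine (mul_le_mul_of_nonneg_left (F.integral_tri_le (hnn _ _ _) (hnn _ _ _) (hnn _ _ _)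
          (hnn _ _ _) hsX hsY hsY hsΞ) (sq_nonneg _)).trans ?_
        calc (C / r l) ^ 2 * (6 * T * (6 * r l) * (6 * r l) * (12 * L) ^ F.k)
            = C ^ 2 * 216 * 12 ^ F.k * L ^ F.k * T := by
              have := (hr0 l).ne'
              field_simp
              ring
          _ ≤ _ := by gcongr
      · rw [Finset.card_range, nsmul_eq_mul, hB]
        calc (N : ℝ)⁻¹ ^ 2 * (N * (C ^ 2 * 216 * 12 ^ (m + 1) * L ^ F.k * T))
            = C ^ 2 * 216 * 12 ^ (m + 1) * L ^ F.k * (T / N) := by field_simp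
          _ ≤ _ := by
              refine mul_le_mul_of_nonneg_left ?_ (by positivity)
              have h1 : 0 ≤ rN ^ 2 / T := by positivity
              have h2 : T / N ≤ 8 * T / N :=
                div_le_div_of_nonneg_right (by linarith) hN0.le
              linarith
    · rw [not_or] at hi
      refine (integral_mono (hid i) ((integrable_of_supp hGc hGs).const_mul _)
        (hflat i hi.1 hi.2)).trans ?_
      rw [integral_const_mul]
      have hsY : ∫ s, Y s ≤ 4 * rN :=
        (integral_plateau_le hrN0 (by linarith)).trans (le_of_eq (by ring))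
      refine (mul_le_mul_of_nonneg_left (F.integral_tri_le (hnn _ _ _) (hnn _ _ _) (hnn _ _ _)
        (hnn _ _ _) hsX hsY hsY hsΞ) (sq_nonneg _)).trans ?_
      calc (C / T) ^ 2 * (6 * T * (4 * rN) * (4 * rN) * (12 * L) ^ F.k)
          = C ^ 2 * 96 * 12 ^ F.k * L ^ F.k * (rN ^ 2 / T) := by field_simp; ring
        _ ≤ C ^ 2 * 216 * 12 ^ (m + 1) * L ^ F.k * (rN ^ 2 / T + 8 * T / N) := by
            have h1 : 0 ≤ rN ^ 2 / T := by positivity
            have h2 : 0 ≤ 8 * T / N := by positivity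
            gcongr
            · norm_num
            · linarith
  have htot : ∫ x, η x ^ 2 * F.P.defect2 x ≤ A * (rN ^ 2 / T + 8 * T / N) * L ^ F.k := by
    have cj : ∀ j, Integrable fun x => η x ^ 2 * ∑ i, F.P.defect j i x ^ 2 := fun j =>
      integrable_of_supp ((hηc.continuous.pow 2).fun_mul (continuous_finsetSum _ fun i _ =>
        (F.P.continuous_defect j i).pow 2)) (Sol.supp_sq hηs).mul_right
    simp only [Sol.defect2]
    rw [show (fun x => η x ^ 2 * ∑ j, ∑ i, F.P.defect j i x ^ 2) =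
      fun x => ∑ j, η x ^ 2 * ∑ i, F.P.defect j i x ^ 2 from funext fun x => Finset.mul_sum _ _ _,
      integral_finsetSum _ fun j _ => cj j]
    refine (Finset.sum_le_card_nsmul _ _ (4 * (K ^ 2 * (n * B))) fun j _ => ?_).trans ?_
    · refine (F.P.picone j hηc hηs).trans (mul_le_mul_of_nonneg_left ?_ (by norm_num))
      have hsum : Integrable fun x => ∑ i, pd η i x ^ 2 := integrable_finsetSum _ fun i _ => hid i
      have hlhs : Integrable fun x => pd F.P.u j x ^ 2 * ∑ i, pd η i x ^ 2 := by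
        simp only [Finset.mul_sum]
        exact integrable_finsetSum _ fun i _ => integrable_of_supp
          (((F.P.contDiff_pd j).continuous.pow 2).fun_mul ((continuous_pd hηc i).pow 2))
          (Sol.supp_sq (supp_pd hηs i)).mul_left
      refine (integral_mono hlhs (hsum.const_mul (K ^ 2)) fun x => ?_).trans ?_
      · exact mul_le_mul_of_nonneg_right (sq_le_sq' (abs_le.1 (F.P.abs_pd_u_le j x)).1
          (abs_le.1 (F.P.abs_pd_u_le j x)).2) (Finset.sum_nonneg fun i _ => sq_nonneg _)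
      · rw [integral_const_mul]
        refine mul_le_mul_of_nonneg_left ?_ (sq_nonneg _)
        rw [integral_finsetSum _ fun i _ => hid i]
        exact (Finset.sum_le_card_nsmul _ _ _ fun i _ => hgrad i).trans (le_of_eq (by simp [n]))
    · simp only [Finset.card_univ, Fintype.card_fin, nsmul_eq_mul, Nat.cast_add, Nat.cast_one]
      have hnn2 : 0 ≤ (rN ^ 2 / T + 8 * T / N) * L ^ F.k := by positivity
      rw [hB, hA]
      simp only [n]
      linarith
  -- choose the best row
  set ρ : ℕ → (Fin (m + 1) → ℝ) → ℝ := fun q x => F.win (4 * R * q) R L x ^ 2 with hρ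
  have hcρ : ∀ q, Integrable fun x => ρ q x * F.P.defect2 x := fun q =>
    integrable_of_supp (((F.contDiff_win _ _ _).continuous.pow 2).fun_mul F.P.continuous_defect2)
      (Sol.supp_sq (F.supp_win hR0 hL0)).mul_right
  have hsum : ∀ x, ∑ q ∈ Finset.range M, ρ q x ≤ η x ^ 2 := by
    intro x
    by_cases h : ∃ q ∈ Finset.range M, F.win (4 * R * q) R L x ≠ 0
    swap
    · push Not at h
      rw [Finset.sum_eq_zero fun q hq => by simp [hρ, h q hq]]
      positivity
    obtain ⟨q, hq, hne⟩ := h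
    have hmem : ∀ (q : ℕ), F.win (4 * R * q) R L x ≠ 0 → ∀ j, F.tri
        (plateau (4 * R * q - R) (4 * R * q + R) R) (plateau (-R) R R) (plateau (-R) R R)
        (plateau (-L) L L) j (x j) ≠ 0 := fun q h j => by
      rw [win, weight] at h
      exact (Finset.prod_ne_zero_iff.1 h) j (Finset.mem_univ j)
    have ha : ∀ (q : ℕ), F.win (4 * R * q) R L x ≠ 0 →
        x F.P.a ∈ Ioo (4 * R * q - 2 * R) (4 * R * q + 2 * R) := fun q h => by
      have := hmem q h F.P.a
      simp only [tri, if_true] at this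
      have := not_not.1 (mt (fun h => plateau_eq_zero hR0 h) this)
      constructor <;> linarith [this.1, this.2]
    rw [Finset.sum_eq_single_of_mem q hq fun q' _ hne' => ?_]
    · refine pow_le_pow_left₀ (F.win_mem _ _ _ x).1 ?_ 2
      refine (F.win_mem _ _ _ x).2.trans (le_of_eq ?_)
      have hxa := ha q hne
      have hqM : (q : ℝ) + 1 ≤ M := by exact_mod_cast Finset.mem_range.1 hq
      have hqM' := mul_le_mul_of_nonneg_left hqM (show (0 : ℝ) ≤ 4 * R by positivity)
      have hq0 : (0 : ℝ) ≤ 4 * R * q := by positivity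
      have hone : ∀ l, weight (f l) x = 1 := fun l => Finset.prod_eq_one fun j _ => by
        have h2R : 2 * R ≤ r l := by
          simp only [hr]
          exact le_mul_of_one_le_right (by linarith) (one_le_pow₀ (by norm_num))
        have hj := hmem q hne j
        simp only [tri] at hj
        simp only [hf, tri]
        by_cases h1 : j = F.P.a
        · simp only [if_pos h1]; subst h1
          exact plateau_eq_one hT0 ⟨by linarith [hxa.1], by linarith [hxa.2]⟩
        by_cases h2 : j = F.b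
        · simp only [if_neg h1, if_pos h2] at hj ⊢
          have := not_not.1 (mt (fun h => plateau_eq_zero hR0 h) hj)
          exact plateau_eq_one (hr0 l) ⟨by linarith [this.1], by linarith [this.2]⟩
        by_cases h3 : j = F.d
        · simp only [if_neg h1, if_neg h2, if_pos h3] at hj ⊢
          have := not_not.1 (mt (fun h => plateau_eq_zero hR0 h) hj)
          exact plateau_eq_one (hr0 l) ⟨by linarith [this.1], by linarith [this.2]⟩
        · simp only [if_neg h1, if_neg h2, if_neg h3] at hj ⊢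
          have := not_not.1 (mt (fun h => plateau_eq_zero hL0 h) hj)
          exact plateau_eq_one (by linarith) ⟨by linarith [this.1], by linarith [this.2]⟩
      simp [hη, avgW, hone, hN0.ne']
    · by_contra hne2
      have hw' : F.win (4 * R * q') R L x ≠ 0 := fun h0 => hne2 (by simp [hρ, h0])
      rcases lt_or_gt_of_ne hne' with hlt | hlt
      · have : (q' : ℝ) + 1 ≤ q := by exact_mod_cast hlt
        have := mul_le_mul_of_nonneg_left this (show (0 : ℝ) ≤ 4 * R by positivity)
        linarith [(ha q hne).1, (ha q' hw').2]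
      · have : (q : ℝ) + 1 ≤ q' := by exact_mod_cast hlt
        have := mul_le_mul_of_nonneg_left this (show (0 : ℝ) ≤ 4 * R by positivity)
        linarith [(ha q hne).2, (ha q' hw').1]
  have hsig : ∑ q ∈ Finset.range M, ∫ x, ρ q x * F.P.defect2 x ≤
      A * (rN ^ 2 / T + 8 * T / N) * L ^ F.k := by
    rw [← integral_finsetSum _ fun q _ => hcρ q]
    refine le_trans (integral_mono (integrable_finsetSum _ fun q _ => hcρ q)
      (integrable_of_supp ((hηc.continuous.pow 2).fun_mul F.P.continuous_defect2)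
        (Sol.supp_sq hηs).mul_right) fun x => ?_) htot
    rw [← Finset.sum_mul]
    exact mul_le_mul_of_nonneg_right (hsum x) (F.P.defect2_nonneg x)
  obtain ⟨q, hq, hmin⟩ := Finset.exists_min_image (Finset.range M)
    (fun q => ∫ x, ρ q x * F.P.defect2 x)
    ⟨0, Finset.mem_range.2 (by exact_mod_cast (lt_of_lt_of_le one_pos hM1))⟩
  refine ⟨4 * R * q, by positivity, ?_, ?_⟩
  · have : (q : ℝ) ≤ M := by exact_mod_cast (Finset.mem_range.1 hq).le
    exact mul_le_mul_of_nonneg_left this (by positivity)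
  · have h := (Finset.card_nsmul_le_sum _ _ _ hmin).trans hsig
    rw [Finset.card_range, nsmul_eq_mul] at h
    have hw := mul_le_mul_of_nonneg_right (Slab.Setup.window_arith hA0.le hR0 hε hN hN0 hM hM1)
      (show 0 ≤ L ^ F.k by positivity)
    refine le_of_mul_le_mul_left ?_ (lt_of_lt_of_le one_pos hM1)
    rw [← mul_assoc]
    exact h.trans hw

end Frame

end Vale.Agent.P134.Recur
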