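import Vale.Agent.P134.Recur.Cutoff

/-!
# P134: sliding gives quadratic energy per unit of the axes off the frame
-/

noncomputable section

open MeasureTheory Set Real

namespace Vale.Agent.P134.Recur

open Vale.Agent.P134.Periodic (pd continuous_pd)
open Vale.Agent.P134.Slab (plateau contDiff_plateau plateau_mem plateau_eq_one plateau_eq_zero
  primitive contDiff_primitive hasDerivAt_primitive primitive_left primitive_right abs_primitive_le)

variable {m : ℕ}

lemma Sol.dens_translate (P : Sol m) (z x : Fin (m + 1) → ℝ) :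
    (P.translate z).dens x = P.dens (x + z) := by
  simp only [Sol.dens, Sol.grad2, Sol.pd_translate]
  rfl

lemma Sol.integral_shift (z : Fin (m + 1) → ℝ) (r : ℝ) (G : (Fin (m + 1) → ℝ) → ℝ) :
    ∫ x, cube r (x - z) ^ 2 * G x = ∫ x, cube r x ^ 2 * G (x + z) := by
  rw [← integral_add_right_eq_self (μ := (volume : Measure (Fin (m + 1) → ℝ))) _ z]
  simp only [add_sub_cancel_right]

/-- Moving one derivative from the solution to the weight. -/
lemma Sol.abs_integral_mul_pd_le (P : Sol m) {G : (Fin (m + 1) → ℝ) → ℝ} (hG : ContDiff ℝ 1 G)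
    (hs : HasCompactSupport G) (i : Fin (m + 1)) :
    |∫ x, G x * pd P.u i x| ≤ ∫ x, |pd G i x| := by
  have h := ibp P.contDiff_u hG hs i
  have e : ∫ x, G x * pd P.u i x = -∫ x, P.u x * pd G i x := by
    rw [h, neg_neg]; simp only [mul_comm]
  rw [e, abs_neg]
  refine (abs_integral_le_integral_abs).trans (integral_mono ?_ ?_ fun x => ?_)
  · exact (integrable_of_supp (P.contDiff_u.continuous.fun_mul (continuous_pd hG i))
      (supp_pd hs i).mul_left).abs
  · exact (integrable_of_supp (continuous_pd hG i) (supp_pd hs i)).abs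
  · rw [abs_mul]
    exact mul_le_of_le_one_left (abs_nonneg _) (P.sol.bdd x)

/-- The energy of a cell. -/
theorem exists_cell_energy : ∃ A : ℝ, 0 ≤ A ∧ ∀ R : ℝ, 1 ≤ R → ∃ K' : ℝ, 0 ≤ K' ∧ ∀ P : Sol m,
    ∫ x, cube R x ^ 2 * P.dens x ≤ A * R ^ m + K' * ∫ x, cube (2 * R) x ^ 2 * P.defect2 x := by
  obtain ⟨C, hC0, hC⟩ := exists_cube_bound (m := m)
  set n : ℝ := (m : ℝ) + 1 with hn
  set K : ℝ := (m : ℝ) + 3 with hK
  refine ⟨4 * (n * (K * (2 * (C * 4 ^ m) + 1))) + 2 * (n * (C * (C * 4 ^ m))), by positivity,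
    fun R hR => ?_⟩
  have hR0 : 0 < R := by linarith
  obtain ⟨c, hc0, hc⟩ := Sol.cell_sign (m := m) hR0
  obtain ⟨K', hK'0, hK'⟩ := hc (max 1 c) (le_max_left _ _)
  refine ⟨4 * n * K * K', by positivity, fun P => ?_⟩
  set J := ∫ x, cube (2 * R) x ^ 2 * P.defect2 x with hJ
  have hRm : 1 ≤ R ^ m := one_le_pow₀ hR
  have cρ : Continuous fun x : Fin (m + 1) → ℝ => cube R x ^ 2 := (contDiff_cube R).continuous.pow 2
  have sρ : HasCompactSupport fun x : Fin (m + 1) → ℝ => cube R x ^ 2 := Sol.supp_sq (supp_cube hR0)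
  have hsgn : ∀ j, ∫ x, cube R x ^ 2 * |pd P.u j x| ≤ (2 * (C * 4 ^ m) + 1) * R ^ m + K' * J := by
    intro j
    have h := hK' P j 1 0 (by simp) (by simp)
    simp only [one_mul, zero_mul, add_zero] at h
    have h1 : |∫ x, cube R x ^ 2 * pd P.u j x| ≤ 2 * (C * 4 ^ m) * R ^ m := by
      refine (P.abs_integral_mul_pd_le ((contDiff_cube R).pow 2) sρ j).trans ?_
      obtain ⟨-, h2⟩ := hC R hR0 j
      refine le_trans (integral_mono (integrable_of_supp (continuous_pd ((contDiff_cube R).pow 2) j)
        (supp_pd sρ j)).abs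
        ((integrable_of_supp (continuous_pd (contDiff_cube R) j) (supp_pd (supp_cube hR0) j)).abs.const_mul 2)
        fun x => ?_) ?_
      · have e : pd (fun y => cube R y ^ 2) j x = 2 * cube R x * pd (cube R) j x := by
          rw [pd, (((contDiff_cube R).differentiable one_ne_zero x).hasFDerivAt.pow 2).fderiv]
          simp [pd]
        rw [e, abs_mul, abs_of_nonneg (by linarith [(cube_mem R x).1] : 0 ≤ 2 * cube R x)]
        exact mul_le_mul_of_nonneg_right (by linarith [(cube_mem R x).2]) (abs_nonneg _)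
      · rw [integral_const_mul, mul_assoc 2 (C * 4 ^ m), mul_assoc C, ← mul_pow]
        exact mul_le_mul_of_nonneg_left h2 zero_le_two
    have h2 : c / max 1 c ≤ 1 :=
      (div_le_one (lt_of_lt_of_le one_pos (le_max_left _ _))).2 (le_max_right _ _)
    linarith
  have hgrad : ∫ x, cube R x ^ 2 * P.grad2 x ≤
      n * (K * ((2 * (C * 4 ^ m) + 1) * R ^ m + K' * J)) := by
    have ia : ∀ j, Integrable fun x => cube R x ^ 2 * |pd P.u j x| := fun j =>
      integrable_of_supp (cρ.fun_mul (P.contDiff_pd j).continuous.abs) sρ.mul_right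
    refine (integral_mono (integrable_of_supp (cρ.fun_mul P.continuous_grad2) sρ.mul_right)
      (integrable_finsetSum Finset.univ fun j _ => (ia j).const_mul K) fun x => ?_).trans ?_
    · simp only [Sol.grad2, Finset.mul_sum]
      refine Finset.sum_le_sum fun j _ => ?_
      rw [← sq_abs (pd P.u j x), mul_left_comm K, sq |pd P.u j x|]
      exact mul_le_mul_of_nonneg_left
        (mul_le_mul_of_nonneg_right (P.abs_pd_u_le j x) (abs_nonneg _)) (sq_nonneg _)
    · rw [integral_finsetSum _ fun j _ => (ia j).const_mul K]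
      refine (Finset.sum_le_card_nsmul _ _ (K * ((2 * (C * 4 ^ m) + 1) * R ^ m + K' * J))
        fun j _ => ?_).trans (le_of_eq (by simp [hn]))
      rw [integral_const_mul]
      exact mul_le_mul_of_nonneg_left (hsgn j) (by positivity)
  have hdir : ∫ x, ∑ i, pd (cube (m := m) R) i x ^ 2 ≤ n * (C * (C * 4 ^ m)) * R ^ m := by
    have isq : ∀ i, Integrable fun x : Fin (m + 1) → ℝ => pd (cube R) i x ^ 2 := fun i =>
      integrable_of_supp ((continuous_pd (contDiff_cube _) i).pow 2)
        (Sol.supp_sq (supp_pd (supp_cube hR0) i))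
    rw [integral_finsetSum _ fun i _ => isq i]
    refine (Finset.sum_le_card_nsmul _ _ (C * (C * 4 ^ m) * R ^ m) fun i _ => ?_).trans
      (le_of_eq (by simp [hn]; ring))
    obtain ⟨h1, h2⟩ := hC R hR0 i
    refine (integral_mono (isq i)
      ((integrable_of_supp (continuous_pd (contDiff_cube R) i) (supp_pd (supp_cube hR0) i)).abs.const_mul
        C) fun x => ?_).trans ?_
    · rw [← sq_abs, sq]
      exact mul_le_mul_of_nonneg_right ((h1 x).trans (div_le_self hC0 hR)) (abs_nonneg _)
    · rw [integral_const_mul]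
      refine (mul_le_mul_of_nonneg_left h2 hC0).trans (le_of_eq ?_)
      ring
  have hpot := P.potential_bound (contDiff_cube R) (supp_cube hR0)
  have iG : Integrable fun x => cube R x ^ 2 * P.grad2 x :=
    integrable_of_supp (cρ.fun_mul P.continuous_grad2) sρ.mul_right
  have iW : Integrable fun x => cube R x ^ 2 * (1 - P.u x ^ 2) ^ 2 := integrable_of_supp
    (cρ.fun_mul ((continuous_const.sub (P.contDiff_u.continuous.pow 2)).pow 2)) sρ.mul_right
  have e : ∫ x, cube R x ^ 2 * P.dens x =
      1 / 2 * (∫ x, cube R x ^ 2 * P.grad2 x) + 1 / 4 * ∫ x, cube R x ^ 2 * (1 - P.u x ^ 2) ^ 2 := by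
    rw [← integral_const_mul, ← integral_const_mul, ← integral_add (iG.const_mul _) (iW.const_mul _)]
    refine integral_congr_ae (Filter.Eventually.of_forall fun x => ?_)
    simp only [Sol.dens]
    ring
  rw [e]
  have hn0 : 0 ≤ n * (C * (C * 4 ^ m)) * R ^ m := by positivity
  linarith

namespace Frame

/-- The derivative along the axis has quadratic mass on tubes. -/
lemma exists_tube_bound : ∃ C : ℝ, 0 ≤ C ∧ ∀ (F : Frame m) (t R L : ℝ), 0 ≤ t → 0 < R → 0 < L →
    ∫ x, weight (F.tri (plateau (-2 * R) (t + 2 * R) R) (plateau (-2 * R) (2 * R) R)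
      (plateau (-2 * R) (2 * R) R) (plateau (-2 * L) (2 * L) L)) x * pd F.P.u F.P.a x ≤
      C * R ^ 2 * L ^ F.k := by
  obtain ⟨C, hC0, hC⟩ := exists_plateau_bound
  refine ⟨C * 36 * 6 ^ (m + 1), by positivity, fun F t R L ht hR hL => ?_⟩
  set χ := plateau (-2 * R) (t + 2 * R) R with hχ
  set p := plateau (-2 * R) (2 * R) R with hp
  set ξ := plateau (-2 * L) (2 * L) L with hξ
  have hWc : ∀ j, ContDiff ℝ 1 (F.tri χ p p ξ j) := F.tri_cases (p := fun g => ContDiff ℝ 1 g)
    (contDiff_plateau _ _ _) (contDiff_plateau _ _ _) (contDiff_plateau _ _ _) (contDiff_plateau _ _ _)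
  have hWs : HasCompactSupport (weight (F.tri χ p p ξ)) := supp_weight (F.tri_cases
    (p := HasCompactSupport) (supp_plateau hR) (supp_plateau hR) (supp_plateau hR) (supp_plateau hL))
  refine (le_abs_self _).trans ((F.P.abs_integral_mul_pd_le (contDiff_weight hWc) hWs F.P.a).trans ?_)
  have e : (fun x => |pd (weight (F.tri χ p p ξ)) F.P.a x|) =
      weight (F.tri (fun s => |deriv χ s|) p p ξ) := by
    funext x
    rw [pd_weight hWc, abs_weight]
    refine Finset.prod_congr rfl fun j _ => ?_
    by_cases hj : j = F.P.a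
    · subst hj; simp [tri]
    · simp only [Function.update_of_ne hj, tri, if_neg hj]
      by_cases hb : j = F.b
      · simp only [if_pos hb, abs_of_nonneg (plateau_mem _ _ _ _).1, hp]
      by_cases hd : j = F.d
      · simp only [if_neg hb, if_pos hd, abs_of_nonneg (plateau_mem _ _ _ _).1, hp]
      · simp only [if_neg hb, if_neg hd, abs_of_nonneg (plateau_mem _ _ _ _).1, hξ]
  rw [e]
  refine (F.integral_tri_le (integral_nonneg fun s => abs_nonneg _) (integral_plateau_nonneg _ _ _)
    (integral_plateau_nonneg _ _ _) (integral_plateau_nonneg _ _ _)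
    (hC (-2 * R) (t + 2 * R) R hR (by linarith)).2
    (integral_plateau_le hR (by linarith)) (integral_plateau_le hR (by linarith))
    (integral_plateau_le hL (by linarith))).trans ?_
  rw [show (2 : ℝ) * R - -2 * R + 2 * R = 6 * R by ring,
    show (2 : ℝ) * L - -2 * L + 2 * L = 6 * L by ring, mul_pow 6 L]
  have hk : (6 : ℝ) ^ F.k ≤ 6 ^ (m + 1) :=
    pow_le_pow_right₀ (by norm_num) (by have := F.k_add_three; omega)
  calc C * (6 * R) * (6 * R) * (6 ^ F.k * L ^ F.k) = C * 36 * 6 ^ F.k * R ^ 2 * L ^ F.k := by ring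
    _ ≤ _ := by gcongr

/-- Sliding the window along the increasing axis. -/
lemma exists_slide_bound : ∃ C : ℝ, 0 ≤ C ∧ ∀ (F : Frame m) (t R L : ℝ), 0 ≤ t → 0 < R → R ≤ L →
    ∫ x, F.P.dens x * F.win 0 R L x ≤
      (∫ x, F.P.dens x * F.win t R L x) + C * R ^ 2 * L ^ F.k := by
  obtain ⟨C₁, hC₁0, hC₁⟩ := exists_tube_bound (m := m)
  obtain ⟨C, hC0, hC⟩ := exists_plateau_bound
  set n : ℝ := (m : ℝ) + 1 with hn
  set K : ℝ := (m : ℝ) + 3 with hK
  refine ⟨n * K * (2 + 8 * C) * C₁, by positivity, fun F t R L ht hR hRL => ?_⟩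
  have hL : 0 < L := hR.trans_le hRL
  set p := plateau (-R) R R with hp
  set ξ := plateau (-L) L L with hξ
  set Q := primitive (-R) R R with hQ
  set Pq := fun s => Q s - Q (s - t) with hPq
  have hPqc : ContDiff ℝ 1 Pq :=
    (contDiff_primitive _ _ _).sub ((contDiff_primitive _ _ _).comp (contDiff_id.sub contDiff_const))
  have hPqd : deriv Pq = fun s => p s - plateau (t - R) (t + R) R s := funext fun s => by
    have h2 : HasDerivAt (fun s => Q (s - t)) (p (s - t)) s := by
      have := (hasDerivAt_primitive (-R) R R (s - t)).comp s ((hasDerivAt_id' s).sub_const t)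
      rwa [mul_one] at this
    rw [show plateau (t - R) (t + R) R s = p (s - t) by simp only [hp, plateau]; ring_nf]
    exact ((hasDerivAt_primitive (-R) R R s).sub h2).deriv
  set X := plateau (-2 * R) (t + 2 * R) R with hX
  set Y := plateau (-2 * R) (2 * R) R with hY
  set Ξ := plateau (-2 * L) (2 * L) L with hΞ
  have hPq0 : ∀ s, s ≤ -(2 * R) ∨ t + 2 * R ≤ s → Pq s = 0 := by
    rintro s (h | h)
    · simp only [hPq, hQ]
      rw [primitive_left hR (by linarith), primitive_left hR (by linarith), sub_zero]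
    · simp only [hPq, hQ]
      rw [primitive_right hR (show R + R ≤ s by linarith),
        primitive_right hR (show R + R ≤ s - t by linarith), sub_self]
  have hPqX : ∀ s, |Pq s| ≤ 8 * R * X s := fun s => by
    by_cases h : s ≤ -(2 * R) ∨ t + 2 * R ≤ s
    · rw [hPq0 s h, abs_zero]
      exact mul_nonneg (by linarith) (plateau_mem _ _ _ _).1
    · rw [not_or, not_le, not_le] at h
      rw [hX, plateau_eq_one hR ⟨by linarith [h.1], h.2.le⟩, mul_one]
      have h1 := abs_primitive_le hR (show -R ≤ R by linarith) s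
      have h2 := abs_primitive_le hR (show -R ≤ R by linarith) (s - t)
      exact (abs_sub _ _).trans (by linarith)
  have hPqs : HasCompactSupport Pq := HasCompactSupport.intro (isCompact_Icc (a := -(2 * R))
    (b := t + 2 * R)) fun s hs => hPq0 s (by
      rw [mem_Icc, not_and_or, not_le, not_le] at hs
      rcases hs with h | h
      · exact Or.inl h.le
      · exact Or.inr h.le)
  set f := F.tri Pq p p ξ with hf
  have hfc : ∀ j, ContDiff ℝ 1 (f j) := F.tri_cases (p := fun g => ContDiff ℝ 1 g) hPqc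
    (contDiff_plateau _ _ _) (contDiff_plateau _ _ _) (contDiff_plateau _ _ _)
  set Φ := weight f with hΦ
  have hΦc : ContDiff ℝ 1 Φ := contDiff_weight hfc
  have hΦs : HasCompactSupport Φ := supp_weight (F.tri_cases (p := HasCompactSupport) hPqs
    (supp_plateau hR) (supp_plateau hR) (supp_plateau hL))
  have hid := F.P.energy_identity hΦc hΦs
  have ea : ∀ x, pd Φ F.P.a x = F.win 0 R L x - F.win t R L x := fun x => by
    simp only [hΦ, pd_weight hfc, win, weight, zero_sub, zero_add]
    rw [← Finset.mul_prod_erase _ _ (Finset.mem_univ F.P.a),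
      ← Finset.mul_prod_erase _ (fun j => F.tri p p p ξ j (x j)) (Finset.mem_univ F.P.a),
      ← Finset.mul_prod_erase _ (fun j => F.tri (plateau (t - R) (t + R) R) p p ξ j (x j))
        (Finset.mem_univ F.P.a), Function.update_self]
    have e1 : ∀ g : ℝ → ℝ, ∏ j ∈ Finset.univ.erase F.P.a, F.tri g p p ξ j (x j) =
        ∏ j ∈ Finset.univ.erase F.P.a, Function.update f F.P.a (deriv (f F.P.a)) j (x j) := fun g =>
      Finset.prod_congr rfl fun j hj => by
        rw [Function.update_of_ne (Finset.ne_of_mem_erase hj)]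
        simp [hf, tri, Finset.ne_of_mem_erase hj]
    rw [e1, e1, show deriv (f F.P.a) (x F.P.a) = deriv Pq (x F.P.a) by simp [hf, tri], hPqd]
    simp [tri, hp]
    ring
  set T := weight (F.tri X Y Y Ξ) with hT
  have hpY : ∀ s, p s ≤ Y s := plateau_le_of_le hR hR (by linarith) (by linarith)
  have hξΞ : ∀ s, ξ s ≤ Ξ s := plateau_le_of_le hL hL (by linarith) (by linarith)
  have hb : ∀ i x, |pd Φ i x| ≤ (2 + 8 * C) * T x := by
    intro i x
    rw [hΦ, pd_weight hfc, abs_weight, hT, weight, weight,
      ← Finset.mul_prod_erase _ _ (Finset.mem_univ F.P.a),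
      ← Finset.mul_prod_erase _ (fun j => F.tri X Y Y Ξ j (x j)) (Finset.mem_univ F.P.a)]
    have hX0 := fun s => (plateau_mem (-2 * R) (t + 2 * R) R s).1
    have hC8 : 0 ≤ 8 * C := by linarith
    by_cases hia : i = F.P.a
    · subst hia
      rw [Function.update_self, show f F.P.a = Pq by simp [hf, tri], hPqd, ← mul_assoc]
      have e1 : F.tri X Y Y Ξ F.P.a = X := by simp [tri]
      rw [e1]
      refine mul_le_mul ?_ (Finset.prod_le_prod (fun j _ => abs_nonneg _) fun j hj => ?_)
        (Finset.prod_nonneg fun j _ => abs_nonneg _) (mul_nonneg (by linarith) (hX0 _))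
      · have h1 : p (x F.P.a) ≤ X (x F.P.a) := plateau_le_of_le hR hR (by linarith) (by linarith) _
        have h2 : plateau (t - R) (t + R) R (x F.P.a) ≤ X (x F.P.a) :=
          plateau_le_of_le hR hR (by linarith) (by linarith) _
        refine (abs_sub _ _).trans ?_
        rw [abs_of_nonneg (plateau_mem _ _ _ _).1, abs_of_nonneg (plateau_mem _ _ _ _).1]
        have := mul_nonneg hC8 (hX0 (x F.P.a))
        linarith
      · rw [Function.update_of_ne (Finset.ne_of_mem_erase hj)]
        simp only [hf, tri, if_neg (Finset.ne_of_mem_erase hj)]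
        by_cases hb' : j = F.b
        · simp only [if_pos hb']; rw [abs_of_nonneg (plateau_mem _ _ _ _).1]; exact hpY _
        by_cases hd : j = F.d
        · simp only [if_neg hb', if_pos hd]; rw [abs_of_nonneg (plateau_mem _ _ _ _).1]; exact hpY _
        · simp only [if_neg hb', if_neg hd]; rw [abs_of_nonneg (plateau_mem _ _ _ _).1]; exact hξΞ _
    · rw [Function.update_of_ne (Ne.symm hia), show f F.P.a = Pq by simp [hf, tri],
        show F.tri X Y Y Ξ F.P.a = X by simp [tri]]
      have hi' : i ∈ Finset.univ.erase F.P.a := Finset.mem_erase.2 ⟨hia, Finset.mem_univ _⟩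
      rw [← Finset.mul_prod_erase _ _ hi',
        ← Finset.mul_prod_erase _ (fun j => F.tri X Y Y Ξ j (x j)) hi', Function.update_self]
      have hd' : |deriv (f i) (x i)| ≤ C / R * F.tri X Y Y Ξ i (x i) := by
        simp only [hf, tri, if_neg hia]
        have h1 : ∀ s, |deriv p s| ≤ C / R * Y s := fun s => by
          have := (hC (-R) R R hR (by linarith)).1 s
          rw [hp, hY, show (-2 : ℝ) * R = -R - R by ring, show (2 : ℝ) * R = R + R by ring]
          exact this
        by_cases hb' : i = F.b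
        · simp only [if_pos hb']; exact h1 _
        by_cases hd : i = F.d
        · simp only [if_neg hb', if_pos hd]; exact h1 _
        · simp only [if_neg hb', if_neg hd]
          refine ((hC (-L) L L hL (by linarith)).1 _).trans ?_
          rw [hΞ, show (-2 : ℝ) * L = -L - L by ring, show (2 : ℝ) * L = L + L by ring]
          exact mul_le_mul_of_nonneg_right (div_le_div_of_nonneg_left hC0 hR hRL) (plateau_mem _ _ _ _).1
      have hrest : ∏ j ∈ (Finset.univ.erase F.P.a).erase i,
          |Function.update f i (deriv (f i)) j (x j)| ≤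
          ∏ j ∈ (Finset.univ.erase F.P.a).erase i, F.tri X Y Y Ξ j (x j) := by
        refine Finset.prod_le_prod (fun j _ => abs_nonneg _) fun j hj => ?_
        obtain ⟨hji, hj'⟩ := Finset.mem_erase.1 hj
        rw [Function.update_of_ne hji]
        simp only [hf, tri, if_neg (Finset.ne_of_mem_erase hj')]
        by_cases hb' : j = F.b
        · simp only [if_pos hb']; rw [abs_of_nonneg (plateau_mem _ _ _ _).1]; exact hpY _
        by_cases hd : j = F.d
        · simp only [if_neg hb', if_pos hd]; rw [abs_of_nonneg (plateau_mem _ _ _ _).1]; exact hpY _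
        · simp only [if_neg hb', if_neg hd]; rw [abs_of_nonneg (plateau_mem _ _ _ _).1]; exact hξΞ _
      have hd0 := (abs_nonneg _).trans hd'
      have hr0 : 0 ≤ ∏ j ∈ (Finset.univ.erase F.P.a).erase i,
          |Function.update f i (deriv (f i)) j (x j)| := Finset.prod_nonneg fun j _ => abs_nonneg _
      calc _ ≤ 8 * R * X (x F.P.a) * (C / R * F.tri X Y Y Ξ i (x i) *
            ∏ j ∈ (Finset.univ.erase F.P.a).erase i, F.tri X Y Y Ξ j (x j)) :=
            mul_le_mul (hPqX _) (mul_le_mul hd' hrest hr0 hd0) (mul_nonneg (abs_nonneg _) hr0)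
              (mul_nonneg (by linarith) (hX0 _))
        _ = 8 * C * (X (x F.P.a) * (F.tri X Y Y Ξ i (x i) *
            ∏ j ∈ (Finset.univ.erase F.P.a).erase i, F.tri X Y Y Ξ j (x j))) := by field_simp
        _ ≤ _ := mul_le_mul_of_nonneg_right (by linarith) (mul_nonneg (hX0 _) (mul_nonneg
            (F.tri_cases (p := fun g : ℝ → ℝ => ∀ s, 0 ≤ g s) (fun s => (plateau_mem _ _ _ s).1)
              (fun s => (plateau_mem _ _ _ s).1) (fun s => (plateau_mem _ _ _ s).1)
              (fun s => (plateau_mem _ _ _ s).1) i _)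
            (Finset.prod_nonneg fun j _ => F.tri_cases (p := fun g : ℝ → ℝ => ∀ s, 0 ≤ g s)
              (fun s => (plateau_mem _ _ _ s).1) (fun s => (plateau_mem _ _ _ s).1)
              (fun s => (plateau_mem _ _ _ s).1) (fun s => (plateau_mem _ _ _ s).1) j _)))
  have hw := F.P.contDiff_pd F.P.a
  have hTc : Continuous T := continuous_weight (F.tri_cases (p := fun g => Continuous g)
    (contDiff_plateau _ _ _).continuous (contDiff_plateau _ _ _).continuous
    (contDiff_plateau _ _ _).continuous (contDiff_plateau _ _ _).continuous)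
  have hTs : HasCompactSupport T := supp_weight (F.tri_cases (p := HasCompactSupport)
    (supp_plateau hR) (supp_plateau hR) (supp_plateau hR) (supp_plateau hL))
  have h5 : (∫ x, ∑ i, pd Φ i x * pd F.P.u i x * pd F.P.u F.P.a x) ≤
      n * K * (2 + 8 * C) * ∫ x, T x * pd F.P.u F.P.a x := by
    rw [← integral_const_mul]
    refine integral_mono (integrable_finsetSum _ fun i _ => integrable_of_supp
      (((continuous_pd hΦc i).fun_mul (F.P.contDiff_pd i).continuous).fun_mul hw.continuous)
      ((supp_pd hΦs i).mul_right.mul_right)) ((integrable_of_supp (hTc.fun_mul hw.continuous)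
      hTs.mul_right).const_mul _) fun x => ?_
    refine (Finset.sum_le_card_nsmul _ _ ((2 + 8 * C) * T x * K * pd F.P.u F.P.a x)
      fun i _ => ?_).trans (le_of_eq (by simp [hn]; ring))
    refine mul_le_mul_of_nonneg_right ((le_abs_self _).trans ?_) (F.P.sol.mono x).le
    rw [abs_mul]
    exact mul_le_mul (hb i x) (F.P.abs_pd_u_le i x) (abs_nonneg _) ((abs_nonneg _).trans (hb i x))
  simp only [ea, mul_sub] at hid
  rw [integral_sub (integrable_of_supp (F.P.contDiff_dens.continuous.fun_mul
    (F.contDiff_win _ _ _).continuous) (F.supp_win hR hL).mul_left)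
    (integrable_of_supp (F.P.contDiff_dens.continuous.fun_mul (F.contDiff_win _ _ _).continuous)
      (F.supp_win hR hL).mul_left)] at hid
  have h6 := mul_le_mul_of_nonneg_left (hC₁ F t R L ht hR hL)
    (show 0 ≤ n * K * (2 + 8 * C) by positivity)
  linarith

/-- The energy of a window has quadratic growth per unit off the frame. -/
theorem exists_energy_bound : ∃ E : ℝ, 0 ≤ E ∧ ∀ R : ℝ, 1 ≤ R → ∃ L₀ : ℝ, ∀ F : Frame m, ∀ L,
    L₀ ≤ L → ∫ x, F.P.dens x * F.win 0 R L x ≤ E * R ^ 2 * L ^ F.k := by
  obtain ⟨A, hA0, hA⟩ := exists_cell_energy (m := m)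
  obtain ⟨Cs, hCs0, hCs⟩ := exists_slide_bound (m := m)
  refine ⟨2 ^ (m + 1) * A * 2 ^ m + 1 + Cs, by positivity, fun R hR => ?_⟩
  have hR0 : 0 < R := by linarith
  obtain ⟨K', hK'0, hK'⟩ := hA (2 * R) (by linarith)
  set ε : ℝ := 1 / (16 ^ (m + 1) * K' + 1) with hε
  obtain ⟨T, hT0, L₁, hL₁⟩ := exists_small_defect (m := m) (R := 8 * R) (ε := ε) (by linarith)
    (by positivity)
  refine ⟨max (8 * R) (L₁ / 4), fun F L hL => ?_⟩
  have hL8 : 8 * R ≤ L := (le_max_left _ _).trans hL
  have hL0 : 0 < L := by linarith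
  obtain ⟨t, ht0, -, ht⟩ := hL₁ F (4 * L) (by linarith [(le_max_right _ _).trans hL])
  obtain ⟨Z, -, -, hcard, hZ⟩ := F.exists_cells t hR0 hL8
  have hslide := hCs F t R L ht0 hR0 (by linarith)
  have hR2 : 0 < 2 * R := by linarith
  have i1 : ∀ z, Integrable fun x => cube (2 * R) (x - z) ^ 2 * F.P.dens x := fun z =>
    integrable_of_supp ((((contDiff_cube (2 * R)).continuous.comp
      (continuous_id.sub continuous_const)).pow 2).fun_mul F.P.contDiff_dens.continuous)
      ((Sol.supp_sq ((supp_cube (m := m) hR2).comp_homeomorph (Homeomorph.subRight z))).mul_right)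
  have i2 : ∀ z, Integrable fun x => cube (4 * R) (x - z) ^ 2 * F.P.defect2 x := fun z =>
    integrable_of_supp ((((contDiff_cube (4 * R)).continuous.comp
      (continuous_id.sub continuous_const)).pow 2).fun_mul F.P.continuous_defect2)
      ((Sol.supp_sq ((supp_cube (m := m) (mul_pos four_pos hR0)).comp_homeomorph
        (Homeomorph.subRight z))).mul_right)
  have h1 : ∫ x, F.P.dens x * F.win t R L x ≤
      ∑ z ∈ Z, ∫ x, cube (2 * R) (x - z) ^ 2 * F.P.dens x := by
    rw [← integral_finsetSum _ fun z _ => i1 z]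
    refine integral_mono (integrable_of_supp (F.P.contDiff_dens.continuous.fun_mul
      (F.contDiff_win _ _ _).continuous) (F.supp_win hR0 hL0).mul_left)
      (integrable_finsetSum _ fun z _ => i1 z) fun x => ?_
    rw [← Finset.sum_mul, mul_comm (F.P.dens x)]
    exact mul_le_mul_of_nonneg_right (hZ x).1 (F.P.dens_nonneg x)
  have h2 : ∀ z, ∫ x, cube (2 * R) (x - z) ^ 2 * F.P.dens x ≤
      A * (2 * R) ^ m + K' * ∫ x, cube (4 * R) (x - z) ^ 2 * F.P.defect2 x := fun z => by
    rw [Sol.integral_shift, Sol.integral_shift]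
    have h := hK' (F.P.translate z)
    simp only [Sol.dens_translate, Sol.defect2_translate, show 2 * (2 * R) = 4 * R by ring] at h
    exact h
  have h3 : ∑ z ∈ Z, ∫ x, cube (4 * R) (x - z) ^ 2 * F.P.defect2 x ≤
      4 ^ F.k * (ε * (4 * L) ^ F.k) := by
    refine le_trans ?_ (mul_le_mul_of_nonneg_left ht (by positivity))
    rw [← integral_finsetSum _ fun z _ => i2 z, ← integral_const_mul]
    refine integral_mono (integrable_finsetSum _ fun z _ => i2 z)
      ((integrable_of_supp (((F.contDiff_win _ _ _).continuous.pow 2).fun_mul F.P.continuous_defect2)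
        (Sol.supp_sq (F.supp_win (by linarith) (by linarith))).mul_right).const_mul _) fun x => ?_
    rw [← Finset.sum_mul, ← mul_assoc]
    exact mul_le_mul_of_nonneg_right (hZ x).2 (F.P.defect2_nonneg x)
  have h4 : ∑ z ∈ Z, ∫ x, cube (2 * R) (x - z) ^ 2 * F.P.dens x ≤
      (2 ^ (m + 1) * A * 2 ^ m + 1) * R ^ 2 * L ^ F.k := by
    refine (Finset.sum_le_sum fun z _ => h2 z).trans ?_
    rw [Finset.sum_add_distrib, Finset.sum_const, nsmul_eq_mul, ← Finset.mul_sum]
    have hkm : F.k + 2 = m := by have := F.k_add_three; omega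
    have hLk : (0 : ℝ) ≤ L ^ F.k := by positivity
    have b1 : (Z.card : ℝ) * (A * (2 * R) ^ m) ≤ 2 ^ (m + 1) * A * 2 ^ m * R ^ 2 * L ^ F.k := by
      refine (mul_le_mul_of_nonneg_right hcard (by positivity)).trans ?_
      calc (2 * (L / R)) ^ F.k * (A * (2 * R) ^ m) = 2 ^ F.k * A * 2 ^ m * R ^ 2 * L ^ F.k := by
            rw [mul_pow, mul_pow, div_pow, show R ^ m = R ^ F.k * R ^ 2 by rw [← pow_add, hkm]]
            have : R ^ F.k ≠ 0 := by positivity
            field_simp
        _ ≤ _ := by
            have : (2 : ℝ) ^ F.k ≤ 2 ^ (m + 1) := pow_le_pow_right₀ (by norm_num) (by omega)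
            gcongr
    have b2 : K' * ∑ z ∈ Z, ∫ x, cube (4 * R) (x - z) ^ 2 * F.P.defect2 x ≤ R ^ 2 * L ^ F.k := by
      refine (mul_le_mul_of_nonneg_left h3 hK'0).trans ?_
      calc K' * (4 ^ F.k * (ε * (4 * L) ^ F.k)) = 16 ^ F.k * K' * ε * L ^ F.k := by
            rw [mul_pow, show (16 : ℝ) = 4 * 4 by norm_num, mul_pow 4 4]; ring
        _ ≤ 1 * L ^ F.k := by
            refine mul_le_mul_of_nonneg_right ?_ hLk
            rw [hε, mul_one_div, div_le_one (by positivity)]
            have := mul_le_mul_of_nonneg_right (pow_le_pow_right₀ (show (1 : ℝ) ≤ 16 by norm_num)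
              (show F.k ≤ m + 1 by omega)) hK'0
            linarith
        _ ≤ _ := mul_le_mul_of_nonneg_right (one_le_pow₀ hR) hLk
    linarith
  linarith

end Frame

end Vale.Agent.P134.Recur
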