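import Vale.Agent.P134.Recur.Basic

/-!
# P134: identities of Picone type for compactly supported weights
-/

noncomputable section

open MeasureTheory Set Real

namespace Vale.Agent.P134.Recur.Sol

open Vale.Agent.P134.Periodic (pd continuous_pd)

variable {m : ℕ} (P : Sol m)

/-- `∂_i u_j - (u_j / u_a) ∂_i u_a`. -/
def defect (j i : Fin (m + 1)) (x : Fin (m + 1) → ℝ) : ℝ :=
  pd (pd P.u j) i x - pd P.u j x / pd P.u P.a x * pd (pd P.u P.a) i x

lemma continuous_defect (j i : Fin (m + 1)) : Continuous (P.defect j i) :=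
  (continuous_pd (P.contDiff_pd j) i).sub
    (((P.contDiff_pd j).continuous.div (P.contDiff_pd P.a).continuous fun x => (P.sol.mono x).ne').mul
      (continuous_pd (P.contDiff_pd P.a) i))

/-- The total squared defect. -/
def defect2 (x : Fin (m + 1) → ℝ) : ℝ := ∑ j, ∑ i, P.defect j i x ^ 2

lemma continuous_defect2 : Continuous P.defect2 :=
  continuous_finsetSum _ fun j _ => continuous_finsetSum _ fun i _ => (P.continuous_defect j i).pow 2

lemma defect2_nonneg (x : Fin (m + 1) → ℝ) : 0 ≤ P.defect2 x :=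
  Finset.sum_nonneg fun _ _ => Finset.sum_nonneg fun _ _ => sq_nonneg _

lemma defect_sq_le (j i : Fin (m + 1)) (x : Fin (m + 1) → ℝ) : P.defect j i x ^ 2 ≤ P.defect2 x :=
  (Finset.single_le_sum (f := fun i => P.defect j i x ^ 2) (fun i _ => sq_nonneg _)
    (Finset.mem_univ i)).trans (Finset.single_le_sum (f := fun j => ∑ i, P.defect j i x ^ 2)
      (fun j _ => Finset.sum_nonneg fun i _ => sq_nonneg _) (Finset.mem_univ j))

lemma defect2_translate (z x : Fin (m + 1) → ℝ) :
    (P.translate z).defect2 x = P.defect2 (x + z) := by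
  have e : ∀ (F : (Fin (m + 1) → ℝ) → ℝ) i,
      pd (fun y => F (y + z)) i x = pd F i (x + z) := fun F i => by
    rw [pd, fderiv_comp_add_right, pd]
  simp only [defect2, defect, pd_translate, e]
  rfl

/-- The squared gradient. -/
def grad2 (x : Fin (m + 1) → ℝ) : ℝ := ∑ i, pd P.u i x ^ 2

lemma continuous_grad2 : Continuous P.grad2 :=
  continuous_finsetSum _ fun i _ => (P.contDiff_pd i).continuous.pow 2

lemma grad2_nonneg (x : Fin (m + 1) → ℝ) : 0 ≤ P.grad2 x :=
  Finset.sum_nonneg fun _ _ => sq_nonneg _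

lemma sq_pd_le_grad2 (j : Fin (m + 1)) (x : Fin (m + 1) → ℝ) : pd P.u j x ^ 2 ≤ P.grad2 x :=
  Finset.single_le_sum (f := fun i => pd P.u i x ^ 2) (fun i _ => sq_nonneg _) (Finset.mem_univ j)

/-- The energy density. -/
def dens (x : Fin (m + 1) → ℝ) : ℝ := P.grad2 x / 2 + (P.u x ^ 2 - 1) ^ 2 / 4

lemma contDiff_dens : ContDiff ℝ 1 P.dens :=
  ((ContDiff.sum fun i _ => (P.contDiff_pd i).pow 2).div_const 2).add
    (((P.contDiff_u.pow 2).sub contDiff_const).pow 2 |>.div_const 4)

lemma dens_nonneg (x : Fin (m + 1) → ℝ) : 0 ≤ P.dens x :=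
  add_nonneg (div_nonneg (P.grad2_nonneg x) (by norm_num)) (by positivity)

lemma grad2_le_dens (x : Fin (m + 1) → ℝ) : P.grad2 x ≤ 2 * P.dens x := by
  simp only [dens]
  linarith [sq_nonneg (P.u x ^ 2 - 1)]

lemma pd_dens (x : Fin (m + 1) → ℝ) :
    pd P.dens P.a x = (∑ i, pd P.u i x * pd (pd P.u P.a) i x) +
      (P.u x ^ 3 - P.u x) * pd P.u P.a x := by
  have h1 := fun i => ((P.contDiff_pd i).differentiable one_ne_zero x).hasFDerivAt
  have h2 := (P.contDiff_u.differentiable one_ne_zero x).hasFDerivAt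
  have hs : HasFDerivAt P.dens _ x := ((HasFDerivAt.fun_sum (u := Finset.univ)
    fun i _ => (h1 i).pow 2).mul_const (2⁻¹ : ℝ)).fun_add
      ((((h2.pow 2).sub_const 1).pow 2).mul_const (4⁻¹ : ℝ))
  have e : ∀ i, pd (pd P.u i) P.a x = pd (pd P.u P.a) i x := fun i =>
    Periodic.Setup.pd_pd_symm P.sol.smooth i P.a x
  simp only [pd] at e
  rw [pd, hs.fderiv]
  simp [pd, e, Finset.mul_sum, mul_assoc]
  ring

/-- The identity obtained by testing the equation with a multiple of `u_a`. -/
lemma energy_identity {Φ : (Fin (m + 1) → ℝ) → ℝ} (hΦ : ContDiff ℝ 1 Φ) (hs : HasCompactSupport Φ) :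
    ∫ x, P.dens x * pd Φ P.a x = ∫ x, ∑ i, pd Φ i x * pd P.u i x * pd P.u P.a x := by
  have hw := P.contDiff_pd P.a
  have hφs : HasCompactSupport fun x => pd P.u P.a x * Φ x := hs.mul_left
  have h2 := P.weak_eqn (hw.mul hΦ) hφs
  have e : ∀ i x, pd (fun y => pd P.u P.a y * Φ y) i x =
      pd (pd P.u P.a) i x * Φ x + pd P.u P.a x * pd Φ i x := fun i x => by
    rw [pd, fderiv_fun_mul (hw.differentiable one_ne_zero x) (hΦ.differentiable one_ne_zero x)]
    simp [pd]
    ring
  have i1 : ∀ i, Integrable fun x => pd P.u i x * pd (pd P.u P.a) i x * Φ x := fun i =>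
    integrable_of_supp (((P.contDiff_pd i).continuous.fun_mul (continuous_pd hw i)).fun_mul
      hΦ.continuous) hs.mul_left
  have i2 : ∀ i, Integrable fun x => pd Φ i x * pd P.u i x * pd P.u P.a x := fun i =>
    integrable_of_supp (((continuous_pd hΦ i).fun_mul (P.contDiff_pd i).continuous).fun_mul
      hw.continuous) ((supp_pd hs i).mul_right.mul_right)
  have i3 : Integrable fun x => (P.u x ^ 3 - P.u x) * (pd P.u P.a x * Φ x) :=
    integrable_of_supp (((P.contDiff_u.continuous.pow 3).sub P.contDiff_u.continuous).fun_mul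
      (hw.continuous.fun_mul hΦ.continuous)) hφs.mul_left
  have h3 : ∀ i, ∫ x, pd P.u i x * pd (fun y => pd P.u P.a y * Φ y) i x =
      (∫ x, pd P.u i x * pd (pd P.u P.a) i x * Φ x) +
        ∫ x, pd Φ i x * pd P.u i x * pd P.u P.a x := fun i => by
    rw [← integral_add (i1 i) (i2 i)]
    exact integral_congr_ae (Filter.Eventually.of_forall fun x => by simp only [e]; ring)
  simp only [h3, Finset.sum_add_distrib] at h2
  rw [ibp P.contDiff_dens hΦ hs P.a]
  simp only [P.pd_dens, add_mul, Finset.sum_mul, mul_assoc (P.u _ ^ 3 - P.u _)]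
  rw [integral_add (integrable_finsetSum _ fun i _ => i1 i) i3,
    integral_finsetSum _ fun i _ => i1 i, integral_finsetSum _ fun i _ => i2 i]
  linarith

/-- The inequality behind the Liouville theorem. -/
lemma picone (j : Fin (m + 1)) {η : (Fin (m + 1) → ℝ) → ℝ} (hη : ContDiff ℝ 1 η)
    (hs : HasCompactSupport η) :
    ∫ x, η x ^ 2 * ∑ i, P.defect j i x ^ 2 ≤
      4 * ∫ x, pd P.u j x ^ 2 * ∑ i, pd η i x ^ 2 := by
  set v := pd P.u j with hv
  set w := pd P.u P.a with hw
  have hvc : ContDiff ℝ 1 v := P.contDiff_pd j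
  have hwc : ContDiff ℝ 1 w := P.contDiff_pd P.a
  have hw0 : ∀ x, w x ≠ 0 := fun x => (P.sol.mono x).ne'
  set φ := fun x => v x * (η x * η x) with hφ
  set ψ := fun x => v x * v x / w x * (η x * η x) with hψ
  have hφc : ContDiff ℝ 1 φ := hvc.mul (hη.mul hη)
  have hψc : ContDiff ℝ 1 ψ := ((hvc.mul hvc).div hwc hw0).mul (hη.mul hη)
  have hφs : HasCompactSupport φ := (hs.mul_right (f' := η)).mul_left
  have hψs : HasCompactSupport ψ := (hs.mul_right (f' := η)).mul_left
  have e1 := P.weak_deriv j hφc hφs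
  have e2 := P.weak_deriv P.a hψc hψs
  simp only [← hv, ← hw] at e1 e2
  have e3 : ∀ x, (3 * P.u x ^ 2 - 1) * w x * ψ x = (3 * P.u x ^ 2 - 1) * v x * φ x := fun x => by
    have := hw0 x
    simp only [hφ, hψ]
    field_simp
  simp only [e3] at e2
  have hi1 : ∀ i, Integrable fun x => pd v i x * pd φ i x := fun i =>
    integrable_of_supp ((continuous_pd hvc i).fun_mul (continuous_pd hφc i)) (supp_pd hφs i).mul_left
  have hi2 : ∀ i, Integrable fun x => pd w i x * pd ψ i x := fun i =>
    integrable_of_supp ((continuous_pd hwc i).fun_mul (continuous_pd hψc i)) (supp_pd hψs i).mul_left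
  have hi12 : ∀ i, Integrable fun x => pd v i x * pd φ i x - pd w i x * pd ψ i x := fun i =>
    (hi1 i).sub (hi2 i)
  have key : ∫ x, ∑ i, (pd v i x * pd φ i x - pd w i x * pd ψ i x) = 0 := by
    rw [integral_finsetSum _ fun i _ => hi12 i]
    simp only [integral_sub (hi1 _) (hi2 _), Finset.sum_sub_distrib]
    linarith
  have hptw : ∀ x, (1 / 2 : ℝ) * (η x ^ 2 * ∑ i, P.defect j i x ^ 2)
      - 2 * (v x ^ 2 * ∑ i, pd η i x ^ 2) ≤ ∑ i, (pd v i x * pd φ i x - pd w i x * pd ψ i x) := by
    intro x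
    simp only [Finset.mul_sum, ← Finset.sum_sub_distrib]
    refine Finset.sum_le_sum fun i _ => ?_
    have hdv := (hvc.differentiable one_ne_zero x).hasFDerivAt
    have hdw := (hwc.differentiable one_ne_zero x).hasFDerivAt
    have hdη := (hη.differentiable one_ne_zero x).hasFDerivAt
    have hφd := hdv.mul (hdη.mul hdη)
    have hwi : HasFDerivAt (fun y => (w y)⁻¹) (-(w x ^ 2)⁻¹ • fderiv ℝ w x) x :=
      (hasDerivAt_inv (hw0 x)).comp_hasFDerivAt x hdw
    have hψd := ((hdv.mul hdv).mul hwi).mul (hdη.mul hdη)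
    have eφ : pd φ i x = pd v i x * η x ^ 2 + 2 * v x * η x * pd η i x := by
      rw [pd, show φ = v * (η * η) from rfl, hφd.fderiv]
      simp [pd]
      ring
    have eψ : pd ψ i x = 2 * v x * pd v i x / w x * η x ^ 2
        - v x ^ 2 * pd w i x / w x ^ 2 * η x ^ 2 + 2 * v x ^ 2 / w x * η x * pd η i x := by
      rw [pd, show ψ = v * v * (fun y => (w y)⁻¹) * (η * η) from funext fun y => by
        simp [hψ, div_eq_mul_inv], hψd.fderiv]
      simp [pd]
      ring
    have e : pd v i x * pd φ i x - pd w i x * pd ψ i x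
        = η x ^ 2 * P.defect j i x ^ 2 + 2 * v x * η x * pd η i x * P.defect j i x := by
      rw [eφ, eψ, defect, ← hv, ← hw]
      have := hw0 x
      field_simp
      ring
    rw [e]
    nlinarith [sq_nonneg (η x * P.defect j i x + 2 * (v x * pd η i x))]
  have hη2 : HasCompactSupport fun x => η x ^ 2 := hs.comp_left (g := fun r : ℝ => r ^ 2) (by simp)
  have i1 : Integrable fun x => η x ^ 2 * ∑ i, P.defect j i x ^ 2 :=
    integrable_of_supp ((hη.continuous.pow 2).fun_mul
      (continuous_finsetSum _ fun i _ => (P.continuous_defect j i).pow 2)) hη2.mul_right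
  have i2 : Integrable fun x => v x ^ 2 * ∑ i, pd η i x ^ 2 := by
    simp only [Finset.mul_sum]
    exact integrable_finsetSum _ fun i _ => integrable_of_supp
      ((hvc.continuous.pow 2).fun_mul ((continuous_pd hη i).pow 2))
      (((supp_pd hs i).comp_left (g := fun r : ℝ => r ^ 2) (by simp)).mul_left)
  have i3 : Integrable fun x => ∑ i, (pd v i x * pd φ i x - pd w i x * pd ψ i x) :=
    integrable_finsetSum _ fun i _ => hi12 i
  have h := integral_mono ((i1.const_mul _).sub (i2.const_mul _)) i3 hptw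
  rw [integral_sub' (i1.const_mul _) (i2.const_mul _), integral_const_mul, integral_const_mul,
    key] at h
  linarith

end Vale.Agent.P134.Recur.Sol
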