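import Vale.Agent.P134.Recur.Energy

/-!
# P134: in the mean off the frame the defect vanishes
-/

noncomputable section

open MeasureTheory Set Real Filter Topology

namespace Vale.Agent.P134.Recur

open Vale.Agent.P134.Periodic (pd continuous_pd)
open Vale.Agent.P134.Slab (plateau contDiff_plateau plateau_mem plateau_eq_one plateau_eq_zero)

variable {m : ℕ}

namespace Frame

/-- The defect has mean zero over large windows, uniformly in the solution. -/
theorem exists_mean_small {ρ ε : ℝ} (hρ : 1 ≤ ρ) (hε : 0 < ε) :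
    ∃ L₁ : ℝ, ∀ F : Frame m, ∀ L, L₁ ≤ L →
      ∫ x, F.win 0 ρ L x ^ 2 * F.P.defect2 x ≤ ε * L ^ F.k := by
  obtain ⟨C, hC0, hC⟩ := exists_plateau_bound
  obtain ⟨E, hE0, hE⟩ := exists_energy_bound (m := m)
  set K : ℝ := (m : ℝ) + 3
  set n : ℝ := (m : ℝ) + 1
  have hn1 : n ≠ 0 := (show (0 : ℝ) < (m : ℝ) + 1 by positivity).ne'
  set A : ℝ := 4 * n * n * (2 * (C ^ 2 * (9 * E * 6 ^ (m + 1)))) with hA
  obtain ⟨N, hN⟩ := exists_nat_gt (2 * A / ε)
  have hA0 : 0 ≤ A := by positivity
  have hN0 : (0 : ℝ) < N := lt_of_le_of_lt (by positivity) hN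
  set r : ℕ → ℝ := fun l => 2 * ρ * 4 ^ l with hr
  set rN : ℝ := 2 * ρ * 4 ^ N with hrN
  have hr1 : ∀ l, 2 * ρ ≤ r l := fun l => by
    simp only [hr]
    exact le_mul_of_one_le_right (by linarith) (one_le_pow₀ (by norm_num))
  have hr0 : ∀ l, 0 < r l := fun l => by linarith [hr1 l]
  have hrle : ∀ l, l < N → r l ≤ rN := fun l hl => by
    simp only [hr, hrN]
    exact mul_le_mul_of_nonneg_left (pow_le_pow_right₀ (by norm_num) hl.le) (by linarith)
  have hrN0 : 0 < rN := by positivity
  choose L₀ hL₀ using hE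
  set B : ℝ := 4 * n * n * (C ^ 2 * K ^ 2 * (12 * rN) ^ 3 * 24 ^ (m + 1)) with hB
  set Lmax : ℝ := ∑ l ∈ Finset.range N, |L₀ (3 * r l) (by linarith [hr1 l])| with hLmax
  refine ⟨max (max 1 Lmax) (2 * B / ε), fun F L hL => ?_⟩
  have hL1 : 1 ≤ L := ((le_max_left _ _).trans (le_max_left _ _)).trans hL
  have hLm : Lmax ≤ L := ((le_max_right _ _).trans (le_max_left _ _)).trans hL
  have hLB : 2 * B / ε ≤ L := (le_max_right _ _).trans hL
  have hL0 : 0 < L := by linarith
  set ξ := plateau (-(2 * L)) (2 * L) (2 * L) with hξ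
  set p : ℕ → ℝ → ℝ := fun l => plateau (-(r l)) (r l) (r l) with hp
  set f : ℕ → Fin (m + 1) → ℝ → ℝ := fun l => F.tri (p l) (p l) (p l) ξ with hf
  set η := avgW N f with hη
  have hfc : ∀ l j, ContDiff ℝ 1 (f l j) := fun l => F.tri_cases (p := fun g => ContDiff ℝ 1 g)
    (contDiff_plateau _ _ _) (contDiff_plateau _ _ _) (contDiff_plateau _ _ _) (contDiff_plateau _ _ _)
  have hηc : ContDiff ℝ 1 η := contDiff_avgW hfc
  have hηs : HasCompactSupport η := supp_avgW fun l => F.tri_cases (p := HasCompactSupport)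
    (supp_plateau (hr0 l)) (supp_plateau (hr0 l)) (supp_plateau (hr0 l)) (supp_plateau (by linarith))
  have hf0 : ∀ l j s, 0 ≤ f l j s := fun l => F.tri_cases (p := fun g : ℝ → ℝ => ∀ s, 0 ≤ g s)
    (fun s => (plateau_mem _ _ _ s).1) (fun s => (plateau_mem _ _ _ s).1)
    (fun s => (plateau_mem _ _ _ s).1) (fun s => (plateau_mem _ _ _ s).1)
  -- a wide window dominates a weight and the ramps
  set W : ℝ → Fin (m + 1) → ℝ → ℝ := fun R => F.tri (plateau (0 - R) (0 + R) R) (plateau (-R) R R)
    (plateau (-R) R R) (plateau (-(6 * L)) (6 * L) (6 * L)) with hW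
  have hwin : ∀ R, weight (W R) = F.win 0 R (6 * L) := fun R => rfl
  have hpW : ∀ l R, 3 * r l ≤ R → ∀ s, plateau (-(r l) - r l) (r l + r l) (r l) s ≤ plateau (-R) R R s :=
    fun l R hR => plateau_le_of_le (hr0 l) (by linarith [hr0 l]) (by linarith) (by linarith)
  have hfW : ∀ l R, 3 * r l ≤ R → ∀ j s, f l j s ≤ W R j s := fun l R hR j s => by
    have h1 : p l s ≤ plateau (-R) R R s :=
      plateau_le_of_le (hr0 l) (by linarith [hr0 l]) (by linarith [hr0 l]) (by linarith [hr0 l]) s
    have h2 : ξ s ≤ plateau (-(6 * L)) (6 * L) (6 * L) s :=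
      plateau_le_of_le (by linarith) (by linarith) (by linarith) (by linarith) s
    simp only [hf, hW, tri, zero_sub, zero_add]
    by_cases ha : j = F.P.a
    · simp only [if_pos ha]; exact h1
    by_cases hb : j = F.b
    · simp only [if_neg ha, if_pos hb]; exact h1
    by_cases hd : j = F.d
    · simp only [if_neg ha, if_neg hb, if_pos hd]; exact h1
    · simp only [if_neg ha, if_neg hb, if_neg hd]; exact h2
  have hid : ∀ i, Integrable fun x => pd η i x ^ 2 := fun i =>
    integrable_of_supp ((continuous_pd hηc i).pow 2) (Sol.supp_sq (supp_pd hηs i))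
  have hvi : ∀ j i, Integrable fun x => pd F.P.u j x ^ 2 * pd η i x ^ 2 := fun j i =>
    integrable_of_supp (((F.P.contDiff_pd j).continuous.pow 2).fun_mul ((continuous_pd hηc i).pow 2))
      (Sol.supp_sq (supp_pd hηs i)).mul_left
  have hLk : (0 : ℝ) ≤ L ^ F.k := by positivity
  have hkm : F.k ≤ m + 1 := by have := F.k_add_three; omega
  set G : ℝ := (A / N + B / L) / (4 * n * n) * L ^ F.k with hG
  have hgrad : ∀ j i, ∫ x, pd F.P.u j x ^ 2 * pd η i x ^ 2 ≤ G := by
    intro j i
    by_cases hi : i = F.P.a ∨ i = F.b ∨ i = F.d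
    · have hfi : ∀ l, f l i = p l := fun l => by
        rcases hi with rfl | rfl | rfl
        · simp [hf, tri]
        · simp [hf, tri, F.hab.symm]
        · simp [hf, tri, F.had.symm, F.hbd.symm]
      have hWi : ∀ R s, W R i s = plateau (-R) R R s := fun R s => by
        rcases hi with rfl | rfl | rfl
        · simp [hW, tri]
        · simp [hW, tri, F.hab.symm]
        · simp [hW, tri, F.had.symm, F.hbd.symm]
      have hiw : ∀ l, Integrable fun x => F.P.dens x * F.win 0 (3 * r l) (6 * L) x := fun l =>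
        integrable_of_supp (F.P.contDiff_dens.continuous.fun_mul (F.contDiff_win _ _ _).continuous)
          (F.supp_win (by linarith [hr0 l]) (by linarith)).mul_left
      have hsum : Integrable fun x => (N : ℝ)⁻¹ ^ 2 * ∑ l ∈ Finset.range N,
          2 * (C / r l) ^ 2 * (F.P.dens x * F.win 0 (3 * r l) (6 * L) x) :=
        (integrable_finsetSum _ fun l _ => (hiw l).const_mul _).const_mul _
      refine (integral_mono (hvi j i) hsum fun x => ?_).trans ?_
      · show pd F.P.u j x ^ 2 * pd η i x ^ 2 ≤ _
        rw [hη, sq_pd_avgW_disj hfc fun l l' hll _ => ?_, mul_left_comm, Finset.mul_sum]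
        swap
        · rcases deriv_plateau_disj (show 0 < 2 * ρ by linarith) hll (x i) with e | e
          · refine Or.inl ?_
            rw [pd_weight (hfc l)]
            refine Finset.prod_eq_zero (Finset.mem_univ i) ?_
            rw [Function.update_self, hfi]
            exact e
          · refine Or.inr ?_
            rw [pd_weight (hfc l')]
            refine Finset.prod_eq_zero (Finset.mem_univ i) ?_
            rw [Function.update_self, hfi]
            exact e
        refine mul_le_mul_of_nonneg_left (Finset.sum_le_sum fun l _ => ?_) (sq_nonneg _)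
        have hb : |pd (weight (f l)) i x| ≤ C / r l * F.win 0 (3 * r l) (6 * L) x := by
          rw [← hwin]
          refine abs_pd_weight_le (hfc l) (fun j s => ⟨hf0 l j s, hfW l _ le_rfl j s⟩) (fun s => ?_) x
          rw [hfi, hWi]
          exact ((hC _ _ _ (hr0 l) (by linarith [hr0 l])).1 s).trans
            (mul_le_mul_of_nonneg_left (hpW l _ le_rfl s) (div_nonneg hC0 (hr0 l).le))
        obtain ⟨w0, w1⟩ := F.win_mem 0 (3 * r l) (6 * L) x
        calc pd F.P.u j x ^ 2 * pd (weight (f l)) i x ^ 2
            ≤ (2 * F.P.dens x) * ((C / r l) ^ 2 * F.win 0 (3 * r l) (6 * L) x) := by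
              refine mul_le_mul ((F.P.sq_pd_le_grad2 j x).trans (F.P.grad2_le_dens x)) ?_
                (sq_nonneg _) (mul_nonneg zero_le_two (F.P.dens_nonneg x))
              rw [← sq_abs]
              refine (pow_le_pow_left₀ (abs_nonneg _) hb 2).trans ?_
              rw [mul_pow]
              exact mul_le_mul_of_nonneg_left (pow_le_of_le_one w0 w1 two_ne_zero) (sq_nonneg _)
          _ = _ := by ring
      · rw [integral_const_mul, integral_finsetSum _ fun l _ => (hiw l).const_mul _]
        refine (mul_le_mul_of_nonneg_left (Finset.sum_le_card_nsmul _ _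
          (2 * (C ^ 2 * (9 * E * 6 ^ (m + 1))) * L ^ F.k) fun l hl => ?_) (sq_nonneg _)).trans ?_
        · rw [integral_const_mul]
          have hl6 : L₀ (3 * r l) (by linarith [hr1 l]) ≤ 6 * L := by
            have h1 : |L₀ (3 * r l) (by linarith [hr1 l])| ≤ Lmax :=
              Finset.single_le_sum (f := fun l => |L₀ (3 * r l) (by linarith [hr1 l])|)
                (fun l _ => abs_nonneg _) hl
            linarith [le_abs_self (L₀ (3 * r l) (by linarith [hr1 l]))]
          refine (mul_le_mul_of_nonneg_left (hL₀ (3 * r l) (by linarith [hr1 l]) F (6 * L) hl6)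
            (by positivity)).trans ?_
          calc 2 * (C / r l) ^ 2 * (E * (3 * r l) ^ 2 * (6 * L) ^ F.k)
              = 2 * (C ^ 2 * (9 * E * 6 ^ F.k)) * L ^ F.k := by
                have := (hr0 l).ne'
                rw [mul_pow 6 L]
                field_simp
                ring
            _ ≤ _ := by
                have : (6 : ℝ) ^ F.k ≤ 6 ^ (m + 1) := pow_le_pow_right₀ (by norm_num) hkm
                gcongr
        · rw [Finset.card_range, nsmul_eq_mul, hG]
          have hB' : 0 ≤ B / L := by positivity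
          calc (N : ℝ)⁻¹ ^ 2 * (N * (2 * (C ^ 2 * (9 * E * 6 ^ (m + 1))) * L ^ F.k))
              = A / N / (4 * n * n) * L ^ F.k := by rw [hA]; field_simp
            _ ≤ _ := by gcongr; linarith
    · simp only [not_or] at hi
      obtain ⟨hia, hib, hid'⟩ := hi
      have hwi : Integrable fun x => K ^ 2 * (C / (2 * L)) ^ 2 * F.win 0 (3 * rN) (6 * L) x :=
        (integrable_of_supp (F.contDiff_win _ _ _).continuous
          (F.supp_win (by linarith) (by linarith))).const_mul _
      refine (integral_mono (hvi j i) hwi fun x => ?_).trans ?_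
      · show pd F.P.u j x ^ 2 * pd η i x ^ 2 ≤ _
        rw [mul_assoc]
        obtain ⟨w0, w1⟩ := F.win_mem 0 (3 * rN) (6 * L) x
        refine mul_le_mul (sq_le_sq' (abs_le.1 (F.P.abs_pd_u_le j x)).1
          (abs_le.1 (F.P.abs_pd_u_le j x)).2) (sq_pd_avgW_const hfc (by positivity) w0 w1 fun l hl => ?_)
          (sq_nonneg _) (sq_nonneg _)
        rw [← hwin]
        refine abs_pd_weight_le (hfc l) (fun j s => ⟨hf0 l j s,
          hfW l _ (by linarith [hrle l hl]) j s⟩) (fun s => ?_) x
        simp only [hf, hW, tri, if_neg hia, if_neg hib, if_neg hid']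
        exact ((hC _ _ _ (by linarith) (by linarith)).1 s).trans (mul_le_mul_of_nonneg_left
          (plateau_le_of_le (by linarith) (by linarith) (by linarith) (by linarith) s) (by positivity))
      · rw [integral_const_mul, hG]
        have hv : ∫ x, F.win 0 (3 * rN) (6 * L) x ≤ (12 * rN) * (12 * rN) * (12 * rN) * (24 * L) ^ F.k :=
          F.integral_tri_le (integral_plateau_nonneg _ _ _) (integral_plateau_nonneg _ _ _)
            (integral_plateau_nonneg _ _ _) (integral_plateau_nonneg _ _ _)
            ((integral_plateau_le (by linarith) (by linarith)).trans (le_of_eq (by ring)))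
            ((integral_plateau_le (by linarith) (by linarith)).trans (le_of_eq (by ring)))
            ((integral_plateau_le (by linarith) (by linarith)).trans (le_of_eq (by ring)))
            ((integral_plateau_le (by linarith) (by linarith)).trans (le_of_eq (by ring)))
        refine (mul_le_mul_of_nonneg_left hv (by positivity)).trans ?_
        have hA' : 0 ≤ A / N := by positivity
        calc K ^ 2 * (C / (2 * L)) ^ 2 * ((12 * rN) * (12 * rN) * (12 * rN) * (24 * L) ^ F.k)
            = C ^ 2 * K ^ 2 * (12 * rN) ^ 3 * 24 ^ F.k * (1 / (4 * L * L)) * L ^ F.k := by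
              rw [mul_pow 24 L]; field_simp; ring
          _ ≤ C ^ 2 * K ^ 2 * (12 * rN) ^ 3 * 24 ^ (m + 1) * (1 / L) * L ^ F.k := by
              have h24 : (24 : ℝ) ^ F.k ≤ 24 ^ (m + 1) := pow_le_pow_right₀ (by norm_num) hkm
              have h4L : 1 / (4 * L * L) ≤ 1 / L :=
                div_le_div_of_nonneg_left zero_le_one hL0 (le_mul_of_one_le_left hL0.le (by linarith))
              gcongr
          _ = B / L / (4 * n * n) * L ^ F.k := by rw [hB]; field_simp
          _ ≤ _ := by gcongr; linarith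
  have htot : ∫ x, η x ^ 2 * F.P.defect2 x ≤ (A / N + B / L) * L ^ F.k := by
    have cj : ∀ j, Integrable fun x => η x ^ 2 * ∑ i, F.P.defect j i x ^ 2 := fun j =>
      integrable_of_supp ((hηc.continuous.pow 2).fun_mul (continuous_finsetSum _ fun i _ =>
        (F.P.continuous_defect j i).pow 2)) (Sol.supp_sq hηs).mul_right
    simp only [Sol.defect2]
    rw [show (fun x => η x ^ 2 * ∑ j, ∑ i, F.P.defect j i x ^ 2) =
      fun x => ∑ j, η x ^ 2 * ∑ i, F.P.defect j i x ^ 2 from funext fun x => Finset.mul_sum _ _ _,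
      integral_finsetSum _ fun j _ => cj j]
    refine (Finset.sum_le_card_nsmul _ _ (4 * (n * G)) fun j _ => ?_).trans ?_
    · refine (F.P.picone j hηc hηs).trans (mul_le_mul_of_nonneg_left ?_ (by norm_num))
      simp only [Finset.mul_sum]
      rw [integral_finsetSum _ fun i _ => hvi j i]
      exact (Finset.sum_le_card_nsmul _ _ _ fun i _ => hgrad j i).trans (le_of_eq (by simp [n]))
    · simp only [Finset.card_univ, Fintype.card_fin, nsmul_eq_mul, Nat.cast_add, Nat.cast_one, hG]
      refine le_of_eq ?_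
      simp only [n]
      field_simp
  have hle : ∫ x, F.win 0 ρ L x ^ 2 * F.P.defect2 x ≤ ∫ x, η x ^ 2 * F.P.defect2 x := by
    refine integral_mono (integrable_of_supp (((F.contDiff_win _ _ _).continuous.pow 2).fun_mul
      F.P.continuous_defect2) (Sol.supp_sq (F.supp_win (by linarith) hL0)).mul_right)
      (integrable_of_supp ((hηc.continuous.pow 2).fun_mul F.P.continuous_defect2)
        (Sol.supp_sq hηs).mul_right) fun x => mul_le_mul_of_nonneg_right ?_ (F.P.defect2_nonneg x)
    by_cases h0 : F.win 0 ρ L x = 0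
    · rw [h0, zero_pow two_ne_zero]; positivity
    refine pow_le_pow_left₀ (F.win_mem _ _ _ x).1 ((F.win_mem _ _ _ x).2.trans (le_of_eq ?_)) 2
    rw [win, weight] at h0
    have hone : ∀ l, weight (f l) x = 1 := fun l => Finset.prod_eq_one fun j _ => by
      have hj := (Finset.prod_ne_zero_iff.1 h0) j (Finset.mem_univ j)
      simp only [tri, zero_sub, zero_add] at hj
      simp only [hf, tri]
      have k1 : ∀ s, plateau (-ρ) ρ ρ s ≠ 0 → p l s = 1 := fun s hs => by
        have := not_not.1 (mt (fun h => plateau_eq_zero (by linarith : 0 < ρ) h) hs)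
        exact plateau_eq_one (hr0 l) ⟨by linarith [this.1, hr1 l], by linarith [this.2, hr1 l]⟩
      by_cases h1 : j = F.P.a
      · simp only [if_pos h1] at hj ⊢; exact k1 _ hj
      by_cases h2 : j = F.b
      · simp only [if_neg h1, if_pos h2] at hj ⊢; exact k1 _ hj
      by_cases h3 : j = F.d
      · simp only [if_neg h1, if_neg h2, if_pos h3] at hj ⊢; exact k1 _ hj
      · simp only [if_neg h1, if_neg h2, if_neg h3] at hj ⊢
        have := not_not.1 (mt (fun h => plateau_eq_zero hL0 h) hj)
        exact plateau_eq_one (by linarith) ⟨by linarith [this.1], by linarith [this.2]⟩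
    simp [hη, avgW, hone, hN0.ne']
  refine hle.trans (htot.trans (mul_le_mul_of_nonneg_right ?_ hLk))
  have h1 : A / N ≤ ε / 2 := by
    rw [div_le_iff₀ hN0]; rw [div_lt_iff₀ hε] at hN; linarith
  have h2 : B / L ≤ ε / 2 := by
    rw [div_le_iff₀ hL0]; rw [div_le_iff₀ hε] at hLB; linarith
  linarith

/-- Far out off the frame some cell has small defect. -/
theorem exists_small_cell {r ε : ℝ} (hr : 1 ≤ r) (hε : 0 < ε) :
    ∃ L₁ : ℝ, ∀ F : Frame m, ∀ L, L₁ ≤ L → ∃ z : Fin (m + 1) → ℝ,
      (z F.P.a = 0 ∧ z F.b = 0 ∧ z F.d = 0) ∧ (∀ j, |z j| ≤ 4 * L) ∧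
      ∫ x, cube (4 * r) (x - z) ^ 2 * F.P.defect2 x ≤ ε := by
  obtain ⟨L₁, hL₁⟩ := exists_mean_small (m := m) (ρ := 8 * r) (ε := ε / (16 * r) ^ (m + 1))
    (by linarith) (by positivity)
  have hr0 : 0 < r := by linarith
  refine ⟨max (8 * r) L₁, fun F L hL => ?_⟩
  have hL8 : 8 * r ≤ L := (le_max_left _ _).trans hL
  obtain ⟨Z, hZm, hc1, -, hZ⟩ := F.exists_cells 0 hr0 hL8
  have hm := hL₁ F (4 * L) (by linarith [(le_max_right _ _).trans hL])
  have i2 : ∀ z, Integrable fun x => cube (4 * r) (x - z) ^ 2 * F.P.defect2 x := fun z =>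
    integrable_of_supp ((((contDiff_cube (4 * r)).continuous.comp
      (continuous_id.sub continuous_const)).pow 2).fun_mul F.P.continuous_defect2)
      ((Sol.supp_sq ((supp_cube (m := m) (mul_pos four_pos hr0)).comp_homeomorph
        (Homeomorph.subRight z))).mul_right)
  have h3 : ∑ z ∈ Z, ∫ x, cube (4 * r) (x - z) ^ 2 * F.P.defect2 x ≤
      4 ^ F.k * (ε / (16 * r) ^ (m + 1) * (4 * L) ^ F.k) := by
    refine le_trans ?_ (mul_le_mul_of_nonneg_left hm (by positivity))
    rw [← integral_finsetSum _ fun z _ => i2 z, ← integral_const_mul]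
    refine integral_mono (integrable_finsetSum _ fun z _ => i2 z)
      ((integrable_of_supp (((F.contDiff_win _ _ _).continuous.pow 2).fun_mul F.P.continuous_defect2)
        (Sol.supp_sq (F.supp_win (by linarith) (by linarith))).mul_right).const_mul _) fun x => ?_
    rw [← Finset.sum_mul, ← mul_assoc]
    exact mul_le_mul_of_nonneg_right (hZ x).2 (F.P.defect2_nonneg x)
  have hpos : (0 : ℝ) < (L / r) ^ F.k := pow_pos (div_pos (by linarith) hr0) _
  have hne : Z.Nonempty := Finset.card_pos.1 (by exact_mod_cast hpos.trans_le hc1)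
  obtain ⟨z, hz, hmin⟩ := Finset.exists_min_image Z
    (fun z => ∫ x, cube (4 * r) (x - z) ^ 2 * F.P.defect2 x) hne
  obtain ⟨za, zb, zd, zoff⟩ := hZm z hz
  refine ⟨z, ⟨za, zb, zd⟩, fun j => ?_, ?_⟩
  · by_cases hj : j ∈ F.off
    · exact zoff j hj
    · simp only [off, Finset.mem_sdiff, Finset.mem_univ, true_and, not_not, Finset.mem_insert,
        Finset.mem_singleton] at hj
      rcases hj with rfl | rfl | rfl <;> simp [za, zb, zd] <;> linarith
  · have h := (Finset.card_nsmul_le_sum _ _ _ hmin).trans h3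
    rw [nsmul_eq_mul] at h
    have hI0 : 0 ≤ ∫ x, cube (4 * r) (x - z) ^ 2 * F.P.defect2 x :=
      integral_nonneg fun x => mul_nonneg (sq_nonneg _) (F.P.defect2_nonneg x)
    refine le_of_mul_le_mul_left (((mul_le_mul_of_nonneg_right hc1 hI0).trans h).trans ?_) hpos
    calc 4 ^ F.k * (ε / (16 * r) ^ (m + 1) * (4 * L) ^ F.k)
        = (L / r) ^ F.k * ((16 * r) ^ F.k / (16 * r) ^ (m + 1) * ε) := by
          rw [div_pow, mul_pow 4 L, mul_pow 16 r F.k, show (16 : ℝ) = 4 * 4 by norm_num, mul_pow 4 4 F.k]
          have : r ^ F.k ≠ 0 := by positivity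
          field_simp
      _ ≤ _ := by
          refine mul_le_mul_of_nonneg_left (mul_le_of_le_one_left hε.le ?_) hpos.le
          rw [div_le_one (by positivity)]
          exact pow_le_pow_right₀ (by linarith) (by have := F.k_add_three; omega)

end Frame

end Vale.Agent.P134.Recur
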