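import Vale.Agent.P134.Recur.Liouville
import Vale.Agent.P134.Slab.Main

/-!
# P134: monotone solutions recurrent in all axes but three are one-dimensional
-/

noncomputable section

open MeasureTheory Set Real Filter Topology

namespace Vale.Agent.P134.Recur

open Vale.Agent.P134.Periodic (pd continuous_pd IsMonotoneSolution IsOneDimensional of_defect_eq_zero)
open Vale.Agent.P134.Slab (IsPeriodicOffThree)

/-- Approximate recurrence along the axes off `a`, `b`, `d`: for every `R` and `ε` there is `ℓ` such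
that in arbitrarily large windows off the frame every point is within `ℓ` of an `ε`-return on the
cube of half side `R`. -/
def IsRecurrentOffThree {n : ℕ} (a b d : Fin n) (u : (Fin n → ℝ) → ℝ) : Prop :=
  ∀ R ε : ℝ, 0 < ε → ∃ ℓ : ℝ, ∀ L : ℝ, ∃ z₀ : Fin n → ℝ, (z₀ a = 0 ∧ z₀ b = 0 ∧ z₀ d = 0) ∧
    ∀ z : Fin n → ℝ, (z a = 0 ∧ z b = 0 ∧ z d = 0) → (∀ j, |z j - z₀ j| ≤ L) →
      ∃ h : Fin n → ℝ, (∀ j, |h j - z j| ≤ ℓ) ∧
        ∀ x : Fin n → ℝ, (∀ j, |x j| ≤ R) → |u (x + h) - u x| ≤ ε

/-- Periodic solutions are recurrent. -/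
theorem IsRecurrentOffThree.of_periodic {n : ℕ} {a b d : Fin n} {u : (Fin n → ℝ) → ℝ}
    (hp : IsPeriodicOffThree a b d u) : IsRecurrentOffThree a b d u := by
  classical
  have hT : ∀ j, ∃ T : ℝ, T ≠ 0 ∧ (j ≠ a → j ≠ b → j ≠ d → ∀ x, u (x + Pi.single j T) = u x) :=
    fun j => by
      by_cases h : j ≠ a ∧ j ≠ b ∧ j ≠ d
      · obtain ⟨T, hT0, hT⟩ := hp j h.1 h.2.1 h.2.2
        exact ⟨T, hT0, fun _ _ _ => hT⟩
      · exact ⟨1, one_ne_zero, fun h1 h2 h3 => absurd ⟨h1, h2, h3⟩ h⟩
  choose T hT0 hT using hT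
  intro R ε hε
  refine ⟨∑ j, |T j|, fun L => ⟨0, ⟨rfl, rfl, rfl⟩, fun z hz _ => ?_⟩⟩
  set h : Fin n → ℝ := fun j => (round (z j / T j) : ℤ) * T j with hh
  refine ⟨h, fun j => ?_, fun x _ => ?_⟩
  · refine le_trans ?_ (Finset.single_le_sum (f := fun j => |T j|) (fun j _ => abs_nonneg _)
      (Finset.mem_univ j))
    have e : h j - z j = -((z j / T j - round (z j / T j)) * T j) := by
      simp only [hh]; field_simp [hT0 j]; ring
    rw [e, abs_neg, abs_mul]
    exact mul_le_of_le_one_left (abs_nonneg _) ((abs_sub_round _).trans (by norm_num))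
  · have key : ∀ s : Finset (Fin n), ∀ y, u (y + ∑ j ∈ s, Pi.single j (h j)) = u y := by
      intro s
      induction s using Finset.induction_on with
      | empty => simp
      | insert j s hj ih =>
        intro y
        rw [Finset.sum_insert hj, ← add_assoc, ih]
        by_cases hc : j ≠ a ∧ j ≠ b ∧ j ≠ d
        · have hper : Function.Periodic u (Pi.single j (T j)) := hT j hc.1 hc.2.1 hc.2.2
          have := (hper.zsmul (round (z j / T j))) y
          rwa [← Pi.single_smul, zsmul_eq_mul] at this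
        · have h0 : z j = 0 := by
            simp only [not_and_or, not_not] at hc
            rcases hc with rfl | rfl | rfl
            exacts [hz.1, hz.2.1, hz.2.2]
          simp [hh, h0]
    have e : h = ∑ j, Pi.single j (h j) := (Finset.univ_sum_single h).symm
    rw [e, key Finset.univ x, sub_self, abs_zero]
    exact hε.le

variable {m : ℕ}

/-- The antisymmetric pairing of two derivatives against a cube and a test function. -/
def Sol.pairing (P : Sol m) (j : Fin (m + 1)) (R : ℝ) (ψ : (Fin (m + 1) → ℝ) → ℝ) : ℝ :=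
  (∫ x, cube R x ^ 2 * pd P.u P.a x) * (∫ x, ψ x * pd P.u j x) -
    (∫ x, cube R x ^ 2 * pd P.u j x) * ∫ x, ψ x * pd P.u P.a x

lemma Sol.supp_of_le {R : ℝ} (hR : 0 < R) {ψ : (Fin (m + 1) → ℝ) → ℝ}
    (hψ : ∀ x, |ψ x| ≤ cube R x ^ 2) : HasCompactSupport ψ := by
  refine (supp_cube (m := m) hR).mono fun x hx h0 => hx ?_
  have := hψ x
  rw [h0, zero_pow two_ne_zero, abs_nonpos_iff] at this
  exact this

/-- A small defect makes the pairing small. -/
theorem Sol.pairing_small {R δ : ℝ} (hR : 0 < R) (hδ : 0 < δ) : ∃ ε : ℝ, 0 < ε ∧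
    ∀ (P : Sol m) (j : Fin (m + 1)) (ψ : (Fin (m + 1) → ℝ) → ℝ), Continuous ψ →
      (∀ x, |ψ x| ≤ cube R x ^ 2) →
      ∫ x, cube (2 * R) x ^ 2 * P.defect2 x ≤ ε → |P.pairing j R ψ| ≤ δ := by
  obtain ⟨c, hc0, hc⟩ := Sol.cell_sign (m := m) hR
  set V : ℝ := ((m : ℝ) + 3) * (4 * R) ^ (m + 1) with hV
  have hV0 : 0 < V := by positivity
  obtain ⟨K', hK'0, hK'⟩ := hc (max 1 (2 * V * c / δ)) (le_max_left _ _)
  refine ⟨δ / (2 * V * K' + 1), by positivity, fun P j ψ hψc hψ hD => ?_⟩
  have hM0 : 0 < max 1 (2 * V * c / δ) := lt_of_lt_of_le one_pos (le_max_left _ _)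
  have cρ : Continuous fun x : Fin (m + 1) → ℝ => cube R x ^ 2 := (contDiff_cube R).continuous.pow 2
  have sρ : HasCompactSupport fun x : Fin (m + 1) → ℝ => cube R x ^ 2 := Sol.supp_sq (supp_cube hR)
  have hb : ∀ i, |∫ x, cube R x ^ 2 * pd P.u i x| ≤ V := fun i => by
    refine abs_integral_le_integral_abs.trans ((integral_mono
      (integrable_of_supp (cρ.fun_mul (P.contDiff_pd i).continuous) sρ.mul_right).abs
      ((integrable_of_supp (contDiff_cube R).continuous (supp_cube hR)).const_mul _) fun x => ?_).trans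
      ((integral_const_mul _ _).trans_le (mul_le_mul_of_nonneg_left (integral_cube_le hR) (by positivity))))
    rw [abs_mul, abs_of_nonneg (sq_nonneg _), mul_comm]
    have h := P.abs_pd_u_le i x
    rw [Sol.K] at h
    exact mul_le_mul h (pow_le_of_le_one (cube_mem R x).1 (cube_mem R x).2 two_ne_zero)
      (sq_nonneg _) (by positivity)
  set Iw := ∫ x, cube R x ^ 2 * pd P.u P.a x with hIw
  set Iv := ∫ x, cube R x ^ 2 * pd P.u j x with hIv
  set α := Iw / V with hα
  set β := -Iv / V with hβ
  have hab : ∀ i, |(∫ x, cube R x ^ 2 * pd P.u i x) / V| ≤ 1 := fun i => by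
    rw [abs_div, abs_of_pos hV0, div_le_one hV0]; exact hb i
  have h := hK' P j α β (hab _) (by rw [hβ, neg_div, abs_neg]; exact hab _)
  have cg : Continuous fun x => α * pd P.u j x + β * pd P.u P.a x :=
    (continuous_const.mul (P.contDiff_pd j).continuous).add
      (continuous_const.mul (P.contDiff_pd P.a).continuous)
  have hlin : ∀ (G : (Fin (m + 1) → ℝ) → ℝ), Continuous G → HasCompactSupport G →
      ∫ x, G x * (α * pd P.u j x + β * pd P.u P.a x) =
        α * (∫ x, G x * pd P.u j x) + β * ∫ x, G x * pd P.u P.a x := fun G hG hGs => by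
    rw [← integral_const_mul, ← integral_const_mul, ← integral_add
      ((integrable_of_supp (hG.fun_mul (P.contDiff_pd j).continuous) hGs.mul_right).const_mul α)
      ((integrable_of_supp (hG.fun_mul (P.contDiff_pd P.a).continuous) hGs.mul_right).const_mul β)]
    exact integral_congr_ae (Eventually.of_forall fun x => by ring)
  have h0 : ∫ x, cube R x ^ 2 * (α * pd P.u j x + β * pd P.u P.a x) = 0 := by
    rw [hlin _ cρ sρ, ← hIw, ← hIv, hα, hβ]; ring
  rw [h0, abs_zero, zero_add] at h
  have hψs := Sol.supp_of_le hR hψ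
  have e : P.pairing j R ψ = V * ∫ x, ψ x * (α * pd P.u j x + β * pd P.u P.a x) := by
    rw [hlin _ hψc hψs, Sol.pairing, ← hIw, ← hIv, hα, hβ]; field_simp; ring
  have h1 : |∫ x, ψ x * (α * pd P.u j x + β * pd P.u P.a x)| ≤
      ∫ x, cube R x ^ 2 * |α * pd P.u j x + β * pd P.u P.a x| := by
    refine abs_integral_le_integral_abs.trans (integral_mono
      (integrable_of_supp (hψc.fun_mul cg) hψs.mul_right).abs
      (integrable_of_supp (cρ.fun_mul cg.abs) sρ.mul_right) fun x => ?_)
    rw [abs_mul]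
    exact mul_le_mul_of_nonneg_right (hψ x) (abs_nonneg _)
  rw [e, abs_mul, abs_of_pos hV0]
  have h2 : V * (c / max 1 (2 * V * c / δ)) ≤ δ / 2 := by
    rw [mul_div_assoc', div_le_iff₀ hM0]
    have := le_max_right 1 (2 * V * c / δ)
    rw [div_le_iff₀ hδ] at this
    linarith
  have h3 : V * (K' * ∫ x, cube (2 * R) x ^ 2 * P.defect2 x) ≤ δ / 2 := by
    refine (mul_le_mul_of_nonneg_left (mul_le_mul_of_nonneg_left hD hK'0) hV0.le).trans ?_
    rw [mul_div_assoc', mul_div_assoc', div_le_iff₀ (by positivity)]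
    nlinarith
  have := mul_le_mul_of_nonneg_left (h1.trans h) hV0.le
  linarith

namespace Frame

/-- Recurrence forces the defect to vanish. -/
theorem defect_eq_zero_of_recurrent (F : Frame m)
    (hrec : IsRecurrentOffThree F.P.a F.b F.d F.P.u) (c : Fin (m + 1) → ℝ) (j i : Fin (m + 1)) :
    F.P.defect j i c = 0 := by
  -- every pairing vanishes
  have hzero : ∀ R : ℝ, 1 ≤ R → ∀ ψ : (Fin (m + 1) → ℝ) → ℝ, ContDiff ℝ 1 ψ →
      (∀ x, |ψ x| ≤ cube R x ^ 2) → F.P.pairing j R ψ = 0 := by
    intro R hR ψ hψc hψ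
    have hR0 : 0 < R := by linarith
    have hψs := Sol.supp_of_le hR0 hψ
    -- returns with a small pairing
    have hq : ∀ q : ℕ, ∃ h : Fin (m + 1) → ℝ,
        (∀ x : Fin (m + 1) → ℝ, (∀ l, |x l| ≤ 4 * R) → |F.P.u (x + h) - F.P.u x| ≤ 1 / ((q : ℝ) + 1)) ∧
        |(F.P.translate h).pairing j R ψ| ≤ 1 / ((q : ℝ) + 1) := by
      intro q
      obtain ⟨ε, hε, hpair⟩ := Sol.pairing_small (m := m) hR0 (show (0 : ℝ) < 1 / ((q : ℝ) + 1) by positivity)
      obtain ⟨ℓ, hℓ⟩ := hrec (4 * R) (1 / ((q : ℝ) + 1)) (by positivity)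
      set r : ℝ := R + max ℓ 0 with hr
      obtain ⟨L₁, hL₁⟩ := Frame.exists_small_cell (m := m) (r := r) (by linarith [le_max_right ℓ 0]) hε
      obtain ⟨z₀, hz₀, hret⟩ := hℓ (4 * L₁)
      obtain ⟨z, ⟨za, zb, zd⟩, hzL, hz⟩ := hL₁ (F.translate z₀) L₁ le_rfl
      have hz' : z F.P.a = 0 ∧ z F.b = 0 ∧ z F.d = 0 := ⟨za, zb, zd⟩
      obtain ⟨h, hh, hu⟩ := hret (z + z₀) ⟨by simp [hz'.1, hz₀.1], by simp [hz'.2.1, hz₀.2.1],
        by simp [hz'.2.2, hz₀.2.2]⟩ fun l => by simpa using hzL l
      refine ⟨h, hu, hpair (F.P.translate h) j ψ hψc.continuous hψ (le_trans ?_ hz)⟩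
      have h4r : 0 < 4 * r := by linarith [le_max_right ℓ 0]
      have e : ∫ x, cube (4 * r) (x - z) ^ 2 * (F.translate z₀).P.defect2 x =
          ∫ x, cube (4 * r) (x + (h - z₀ - z)) ^ 2 * (F.P.translate h).defect2 x := by
        rw [← integral_add_right_eq_self (μ := (volume : Measure (Fin (m + 1) → ℝ))) _ (h - z₀)]
        refine integral_congr_ae (Eventually.of_forall fun x => ?_)
        simp only [Frame.translate, Sol.defect2_translate]
        rw [show x + (h - z₀) - z = x + (h - z₀ - z) by abel,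
          show x + (h - z₀) + z₀ = x + h by abel]
      rw [e]
      refine integral_mono (integrable_of_supp (((contDiff_cube _).continuous.pow 2).fun_mul
        (F.P.translate h).continuous_defect2) (Sol.supp_sq (supp_cube (by linarith))).mul_right)
        (integrable_of_supp ((((contDiff_cube _).continuous.comp
          (continuous_id.add continuous_const)).pow 2).fun_mul (F.P.translate h).continuous_defect2)
          ((Sol.supp_sq ((supp_cube (m := m) h4r).comp_homeomorph
            (Homeomorph.addRight (h - z₀ - z)))).mul_right)) fun x => ?_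
      refine mul_le_mul_of_nonneg_right ?_ ((F.P.translate h).defect2_nonneg x)
      by_cases hx : ∀ l, |x l| ≤ 4 * R
      · rw [cube_eq_one h4r fun l => ?_]
        · rw [one_pow]; exact pow_le_one₀ (cube_mem _ x).1 (cube_mem _ x).2
        · have h1 := hh l
          simp only [Pi.add_apply, Pi.sub_apply] at h1 ⊢
          have h2 : |h l - z₀ l - z l| ≤ max ℓ 0 := by
            rw [show h l - z₀ l - z l = h l - (z l + z₀ l) by ring]
            exact h1.trans (le_max_left _ _)
          refine (abs_add_le _ _).trans ?_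
          linarith [hx l, le_max_right ℓ 0]
      · push Not at hx
        obtain ⟨l, hl⟩ := hx
        rw [cube_eq_zero (by linarith) (j := l) (by linarith), zero_pow two_ne_zero]
        positivity
    choose h hu hsmall using hq
    -- the integrals converge along the returns
    have hlim : ∀ (G : (Fin (m + 1) → ℝ) → ℝ), ContDiff ℝ 1 G → (∀ x, G x ≠ 0 → cube R x ≠ 0) →
        ∀ l, Tendsto (fun q => ∫ x, G x * pd (F.P.translate (h q)).u l x) atTop
          (𝓝 (∫ x, G x * pd F.P.u l x)) := by
      intro G hG hG0 l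
      have hGs : HasCompactSupport G := (supp_cube hR0).mono fun x hx => hG0 x hx
      have hts : ∀ x, pd G l x ≠ 0 → ∀ k, |x k| ≤ 4 * R := fun x hx k => by
        by_contra! hk
        refine hx ?_
        have hev : G =ᶠ[𝓝 x] fun _ => 0 := by
          have ho : IsOpen {y : Fin (m + 1) → ℝ | 2 * R < |y k|} :=
            isOpen_lt continuous_const (continuous_apply k).abs
          filter_upwards [ho.mem_nhds (show 2 * R < |x k| by linarith)] with y hy
          by_contra hy0
          exact hG0 y hy0 (cube_eq_zero hR0 (le_of_lt hy))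
        rw [pd, hev.fderiv_eq]
        simp
      rw [tendsto_iff_norm_sub_tendsto_zero]
      refine squeeze_zero (fun q => norm_nonneg _) (fun q => ?_)
        (g := fun q : ℕ => 1 / ((q : ℝ) + 1) * ∫ x, |pd G l x|) ?_
      · rw [Real.norm_eq_abs]
        have e : ∀ P : Sol m, ∫ x, G x * pd P.u l x = -∫ x, P.u x * pd G l x := fun P => by
          rw [ibp P.contDiff_u hG hGs l, neg_neg]; simp only [mul_comm]
        have ii : ∀ P : Sol m, Integrable fun x => P.u x * pd G l x := fun P =>
          integrable_of_supp (P.contDiff_u.continuous.fun_mul (continuous_pd hG l)) (supp_pd hGs l).mul_left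
        rw [e, e, neg_sub_neg, ← integral_sub (ii _) (ii _), ← integral_const_mul]
        refine abs_integral_le_integral_abs.trans (integral_mono ((ii _).sub (ii _)).abs
          ((integrable_of_supp (continuous_pd hG l) (supp_pd hGs l)).abs.const_mul _) fun x => ?_)
        show |F.P.u x * pd G l x - F.P.u (x + h q) * pd G l x| ≤ _
        rw [← sub_mul, abs_mul, abs_sub_comm]
        by_cases hx : pd G l x = 0
        · simp [hx]
        · exact mul_le_mul_of_nonneg_right (hu q x (hts x hx)) (abs_nonneg _)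
      · simpa using tendsto_one_div_add_atTop_nhds_zero_nat.mul_const (∫ x, |pd G l x|)
    have hρ : ∀ x, cube (m := m) R x ^ 2 ≠ 0 → cube R x ≠ 0 := fun x hx h0 => hx (by simp [h0])
    have hψ0 : ∀ x, ψ x ≠ 0 → cube R x ≠ 0 := fun x hx h0 => hx (by
      have := hψ x
      rwa [h0, zero_pow two_ne_zero, abs_nonpos_iff] at this)
    have hρc : ContDiff ℝ 1 fun x : Fin (m + 1) → ℝ => cube R x ^ 2 := (contDiff_cube R).pow 2
    have hJ : Tendsto (fun q => (F.P.translate (h q)).pairing j R ψ) atTop (𝓝 (F.P.pairing j R ψ)) :=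
      ((hlim _ hρc hρ F.P.a).mul (hlim ψ hψc hψ0 j)).sub
        ((hlim _ hρc hρ j).mul (hlim ψ hψc hψ0 F.P.a))
    refine tendsto_nhds_unique hJ (squeeze_zero_norm (fun q => ?_) tendsto_one_div_add_atTop_nhds_zero_nat)
    exact hsmall q
  -- the derivatives are proportional
  set v := pd F.P.u j with hv
  set w := pd F.P.u F.P.a with hw
  have hprop : ∀ x, v x * w 0 = v 0 * w x := by
    intro x
    set R : ℝ := 1 + ∑ l, |x l| with hR
    have hR1 : 1 ≤ R := le_add_of_nonneg_right (Finset.sum_nonneg fun l _ => abs_nonneg _)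
    set W := ∫ y, cube R y ^ 2 * w y with hW
    set V := ∫ y, cube R y ^ 2 * v y with hV
    set g := fun y => W * v y - V * w y with hg
    set G0 : ℝ := |W| * F.P.K + |V| * F.P.K + 1 with hG0
    have hG0p : 0 < G0 := by have := F.P.one_le_K; positivity
    have hgb : ∀ y, |g y| ≤ G0 := fun y => by
      refine (abs_sub _ _).trans ?_
      rw [abs_mul, abs_mul]
      have := mul_le_mul_of_nonneg_left (F.P.abs_pd_u_le j y) (abs_nonneg W)
      have := mul_le_mul_of_nonneg_left (F.P.abs_pd_u_le F.P.a y) (abs_nonneg V)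
      simp only [hv, hw, hG0]
      linarith
    have hgc : ContDiff ℝ 1 g :=
      (contDiff_const.mul (F.P.contDiff_pd j)).sub (contDiff_const.mul (F.P.contDiff_pd F.P.a))
    set ψ := fun y => cube R y ^ 2 * (g y / G0) with hψ
    have hψc : ContDiff ℝ 1 ψ := ((contDiff_cube R).pow 2).mul (hgc.div_const _)
    have hψb : ∀ y, |ψ y| ≤ cube R y ^ 2 := fun y => by
      rw [hψ, abs_mul, abs_of_nonneg (sq_nonneg _), abs_div, abs_of_pos hG0p]
      exact mul_le_of_le_one_right (sq_nonneg _) ((div_le_one hG0p).2 (hgb y))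
    have hψs := Sol.supp_of_le (by linarith) hψb
    have h0 := hzero R hR1 ψ hψc hψb
    have e : F.P.pairing j R ψ = ∫ y, ψ y * g y := by
      rw [Sol.pairing, ← hv, ← hw, ← hW, ← hV, ← integral_const_mul, ← integral_const_mul,
        ← integral_sub ((integrable_of_supp (hψc.continuous.fun_mul (F.P.contDiff_pd j).continuous)
          hψs.mul_right).const_mul W) ((integrable_of_supp (hψc.continuous.fun_mul
          (F.P.contDiff_pd F.P.a).continuous) hψs.mul_right).const_mul V)]
      exact integral_congr_ae (Eventually.of_forall fun y => by simp only [hg]; ring)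
    rw [e] at h0
    have hgz : ∀ y, (∀ l, |y l| ≤ R) → g y = 0 := by
      intro y hy
      by_contra hne
      have hnn : ∀ y, 0 ≤ ψ y * g y := fun y => by
        rw [hψ, mul_assoc, div_mul_eq_mul_div]
        exact mul_nonneg (sq_nonneg _) (div_nonneg (mul_self_nonneg _) hG0p.le)
      have hpos : 0 < ∫ y, ψ y * g y := by
        refine (hψc.continuous.fun_mul hgc.continuous).integral_pos_of_hasCompactSupport_nonneg_nonzero
          hψs.mul_right hnn (x := y) ?_
        simp only [hψ]
        rw [cube_eq_one (by linarith) hy, one_pow, one_mul]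
        exact mul_ne_zero (div_ne_zero hne hG0p.ne') hne
      linarith
    have hx0 := hgz x fun l => by
      have := Finset.single_le_sum (f := fun l => |x l|) (fun l _ => abs_nonneg _) (Finset.mem_univ l)
      linarith
    have h00 := hgz 0 fun l => by simp; linarith
    simp only [hg] at hx0 h00
    have hW0 : W ≠ 0 := by
      refine ne_of_gt ((((contDiff_cube R).continuous.pow 2).fun_mul
        (F.P.contDiff_pd F.P.a).continuous).integral_pos_of_hasCompactSupport_nonneg_nonzero
        (Sol.supp_sq (supp_cube (by linarith))).mul_right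
        (fun y => mul_nonneg (sq_nonneg _) (F.P.sol.mono y).le) (x := 0) ?_)
      rw [cube_eq_one (by linarith) (fun l => by simp; linarith), one_pow, one_mul]
      exact (F.P.sol.mono 0).ne'
    refine mul_left_cancel₀ hW0 ?_
    linear_combination (w 0) * hx0 - (w x) * h00
  have e : v = fun x => v 0 / w 0 * w x := funext fun x => by
    rw [div_mul_eq_mul_div, eq_div_iff (F.P.sol.mono 0).ne', hprop]
  have hd : pd v i c = v 0 / w 0 * pd w i c := by
    rw [show pd v i c = pd (fun x => v 0 / w 0 * w x) i c from congrArg (fun f => pd f i c) e,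
      pd, fderiv_const_mul ((F.P.contDiff_pd F.P.a).differentiable one_ne_zero c)]
    simp [pd]
    exact Or.inl rfl
  have hvc : v c = v 0 / w 0 * w c := congrFun e c
  have hwc := (F.P.sol.mono c).ne'
  rw [Sol.defect, ← hv, ← hw, hd, hvc]
  rw [← hw] at hwc
  field_simp
  ring

end Frame

/-- A monotone solution recurrent along all axes but three is one-dimensional. -/
theorem one_dimensional {m : ℕ} (a b d : Fin (m + 1)) (hab : a ≠ b) (had : a ≠ d) (hbd : b ≠ d)
    (u : (Fin (m + 1) → ℝ) → ℝ) (hu : IsMonotoneSolution a u) (hrec : IsRecurrentOffThree a b d u) :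
    IsOneDimensional u :=
  of_defect_eq_zero a u hu fun c j i =>
    Frame.defect_eq_zero_of_recurrent ⟨⟨a, u, hu⟩, b, d, hab, had, hbd⟩ hrec c j i

end Vale.Agent.P134.Recur
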